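import Vale.Agent.P022D.Nw.Defs

/-!
# P022D, new vectors: the algebraic part
-/

set_option linter.all false

open scoped MatrixGroups

noncomputable section

namespace Vale.Agent.P022D.Nw

open Vale.Agent.P022 Vale.Agent.P022D.G

/-- a relation which is stable under almost all Frobenius elements is stable -/
theorem law_rel {O O' V V' : Type} [CommRing O] [CommRing O'] [AddCommGroup V] [Module O V]
    [AddCommGroup V'] [Module O' V'] {t d : GQ → Module.End O V} {t' d' : GQ → Module.End O' V'}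
    (h : Law t d) (h' : Law t' d') (A : AddSubgroup (V × V')) (S : Finset ℕ)
    (hf : ∀ (ℓ : ℕ) φ, ℓ.Prime → ℓ ∉ S → IsFrob ℓ φ → ∀ v w, (v, w) ∈ A →
      (t φ v, t' φ w) ∈ A ∧ (d φ v, d' φ w) ∈ A) (g : GQ) {v : V} {w : V'} (hx : (v, w) ∈ A) :
    (t g v, t' g w) ∈ A ∧ (d g v, d' g w) ∈ A := by
  obtain ⟨U, n, o, e⟩ := h.opn v
  obtain ⟨U', n', o', e'⟩ := h'.opn w
  obtain ⟨ℓ, φ, k, hl, hS, hφ, hu⟩ := frob (U ⊓ U') inferInstance (o.inter o') g S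
  have H := hf ℓ φ hl hS hφ
  have ht : ∀ k : ℕ, (∀ v w, (v, w) ∈ A → (t (φ ^ k) v, t' (φ ^ k) w) ∈ A) ∧
      ∀ v w, (v, w) ∈ A → (t (φ ^ (k + 1)) v, t' (φ ^ (k + 1)) w) ∈ A := by
    intro k
    induction k with
    | zero =>
      refine ⟨fun v w hx => ?_, fun v w hx => by rw [zero_add, pow_one]; exact (H v w hx).1⟩
      rw [pow_zero, h.one, h'.one, Module.End.ofNat_apply, Module.End.ofNat_apply]
      exact A.nsmul_mem hx 2
    | succ k ih =>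
      refine ⟨ih.2, fun v w hx => ?_⟩
      have a := LinearMap.congr_fun (h.mul (φ ^ (k + 1)) φ) v
      have b := LinearMap.congr_fun (h'.mul (φ ^ (k + 1)) φ) w
      rw [← pow_succ, pow_succ φ k, mul_inv_cancel_right, ← pow_succ φ k, LinearMap.add_apply,
        Module.End.mul_apply, Module.End.mul_apply] at a b
      rw [eq_sub_of_add_eq a.symm, eq_sub_of_add_eq b.symm]
      exact A.sub_mem (ih.2 _ _ (H v w hx).1) (H _ _ (ih.1 v w hx)).2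
  have hd : ∀ (k : ℕ) v w, (v, w) ∈ A → (d (φ ^ k) v, d' (φ ^ k) w) ∈ A := by
    intro k
    induction k with
    | zero => intro v w hx; rw [pow_zero, h.d1, h'.d1]; exact hx
    | succ k ih =>
      intro v w hx
      rw [pow_succ, h.dm, h'.dm]
      exact ih _ _ (H v w hx).2
  have eg : φ ^ k = g * (g⁻¹ * φ ^ k) := by rw [mul_inv_cancel_left]
  constructor
  · rw [← (e _ hu.1).2 g, ← (e' _ hu.2).2 g, ← eg]
    exact (ht k).1 v w hx
  · have a := hd k v w hx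
    rw [eg, h.dm, h'.dm, Module.End.mul_apply, Module.End.mul_apply, (e _ hu.1).1,
      (e' _ hu.2).1] at a
    exact a

theorem dn_rel {O O' V V' : Type} [CommRing O] [CommRing O'] [AddCommGroup V] [Module O V]
    [AddCommGroup V'] [Module O' V'] {t d : GQ → Module.End O V} {t' d' : GQ → Module.End O' V'}
    {A : AddSubgroup (V × V')} {φ : GQ}
    (h : ∀ v w, (v, w) ∈ A → (t φ v, t' φ w) ∈ A ∧ (d φ v, d' φ w) ∈ A) (q : ℕ) {v : V} {w : V'}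
    (hx : (v, w) ∈ A) : (Dn t d q φ v, Dn t' d' q φ w) ∈ A :=
  A.sub_mem (A.nsmul_mem (h _ _ (h v w hx).1).1 q) (A.nsmul_mem (h v w hx).2 ((q + 1) ^ 2))

/-- a relation which is stable under the letters is stable under the words -/
theorem lift_rel {X A B O O' : Type} [CommRing O] [CommRing O'] [AddCommGroup A] [Module O A]
    [AddCommGroup B] [Module O' B] (a : FreeAlgebra ℤ X →ₐ[ℤ] Module.End O A)
    (b : FreeAlgebra ℤ X →ₐ[ℤ] Module.End O' B) (E : AddSubgroup (A × B))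
    (h : ∀ s x y, (x, y) ∈ E → (a (FreeAlgebra.ι ℤ s) x, b (FreeAlgebra.ι ℤ s) y) ∈ E)
    (Q : FreeAlgebra ℤ X) : ∀ x y, (x, y) ∈ E → (a Q x, b Q y) ∈ E := by
  induction Q using FreeAlgebra.induction with
  | grade0 r =>
    intro x y e
    rw [AlgHom.commutes, AlgHom.commutes, Module.algebraMap_end_apply, Module.algebraMap_end_apply]
    exact E.zsmul_mem e r
  | grade1 s => exact h s
  | mul P Q hP hQ =>
    intro x y e
    rw [map_mul, map_mul]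
    exact hP _ _ (hQ x y e)
  | add P Q hP hQ =>
    intro x y e
    rw [map_add, map_add]
    exact E.add_mem (hP x y e) (hQ x y e)

variable {O P C : Type} [CommRing O] [AddCommGroup P] [Module O P] [CommGroup C]

/-- the action on a quotient -/
def qH {A : Type} [Monoid A] (ρ : A →* Module.End O P) (N : Submodule O P)
    (h : ∀ a, ∀ x ∈ N, ρ a x ∈ N) : A →* Module.End O (P ⧸ N) where
  toFun a := N.mapQ N (ρ a) (h a)
  map_one' := LinearMap.ext fun x => by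
    obtain ⟨x, rfl⟩ := N.mkQ_surjective x
    simp
  map_mul' a b := LinearMap.ext fun x => by
    obtain ⟨x, rfl⟩ := N.mkQ_surjective x
    simp

theorem qH_mk {A : Type} [Monoid A] (ρ : A →* Module.End O P) (N : Submodule O P)
    (h : ∀ a, ∀ x ∈ N, ρ a x ∈ N) (a : A) (x : P) : qH ρ N h a (N.mkQ x) = N.mkQ (ρ a x) := rfl

/-- the pseudo-character on a quotient, twisted by `χ` -/
theorem tw {N : ℕ} [NeZero N] (H : GAL2) (hN : Odd N) (ρ : Wd N →+* Module.End O P)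
    (r : C →* Module.End O P) (χ : GQ →* C) (hχ : IsOpen (χ.ker : Set GQ)) (N0 : Submodule O P)
    (hρ : ∀ Q, ∀ x ∈ N0, ρ Q x ∈ N0) (hr : ∀ b, ∀ x ∈ N0, r b x ∈ N0)
    (cm : ∀ b Q, Commute (r b) (ρ Q)) (K : Finset ℕ) (hK : ∀ i ∈ K, 1 ≤ i) (n : ℕ)
    (two : ∀ x, 2 ^ n • x ∈ N0) (kil : ∀ Q, (∀ i ∈ K, sg N i Q = 0) → ∀ x, ρ Q x ∈ N0)
    (ℓ₀ : PA N) : ∃ (V : Type) (_ : AddCommGroup V) (_ : Module O V) (π : P →ₗ[O] V)
      (α : Wd N →+* Module.End O V) (c t d : GQ → Module.End O V), Core α ℓ₀ t d ∧ Dsc α ℓ₀ ∧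
      Law (fun g => c g * t g) (fun g => c g * c g * d g) ∧ (∀ Q x, π (ρ Q x) = α Q (π x)) ∧
      (∀ g x, π (r (χ g) x) = c g (π x)) ∧ (∀ x, π x = 0 → ∃ m, ρ (wT ℓ₀ ^ m) x ∈ N0) ∧
      (∀ x ∈ N0, π x = 0) ∧ (∀ g Q, Commute (c g) (α Q)) ∧
      ∀ q φ, Dn (fun g => c g * t g) (fun g => c g * c g * d g) q φ = c φ * c φ * Dn t d q φ := by
  have cw : ∀ X Y x, ρ (X * Y) x ∈ N0 → ρ (Y * X) x ∈ N0 := fun X Y x e => by
    have := kil (Y * X - X * Y) (fun i _ => by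
      rw [map_sub, map_mul, map_mul, (sg_comm i X Y).eq, sub_self]) x
    rw [map_sub, LinearMap.sub_apply] at this
    simpa using add_mem this e
  have up : ∀ m k x, ρ (wT ℓ₀ ^ m) x ∈ N0 → ρ (wT ℓ₀ ^ (k + m)) x ∈ N0 := fun m k x e => by
    rw [pow_add, map_mul]
    exact hρ _ _ e
  let N1 : Submodule O P :=
    { carrier := {x | ∃ m, ρ (wT ℓ₀ ^ m) x ∈ N0}
      zero_mem' := ⟨0, by simp⟩
      add_mem' := by
        rintro x y ⟨m, a⟩ ⟨k, b⟩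
        refine ⟨k + m, ?_⟩
        rw [map_add]
        exact add_mem (up m k x a) (add_comm k m ▸ up k m y b)
      smul_mem' := by
        rintro c x ⟨m, a⟩
        exact ⟨m, by rw [map_smul]; exact N0.smul_mem c a⟩ }
  have le : ∀ x ∈ N0, x ∈ N1 := fun x e => ⟨0, by simpa using e⟩
  have h1 : ∀ Q, ∀ x ∈ N1, ρ Q x ∈ N1 := by
    rintro Q x ⟨m, a⟩
    have := cw Q (wT ℓ₀ ^ m) x (by rw [map_mul]; exact hρ _ _ a)
    rw [map_mul] at this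
    exact ⟨m, this⟩
  have h2 : ∀ b, ∀ x ∈ N1, r b x ∈ N1 := by
    rintro b x ⟨m, a⟩
    refine ⟨m, ?_⟩
    rw [← Module.End.mul_apply, ← (cm b _).eq]
    exact hr b _ a
  let α : Wd N →+* Module.End O (P ⧸ N1) :=
    { qH ρ.toMonoidHom N1 h1 with
      map_zero' := LinearMap.ext fun x => by
        obtain ⟨x, rfl⟩ := N1.mkQ_surjective x
        show N1.mkQ (ρ 0 x) = 0
        simp
      map_add' := fun a b => LinearMap.ext fun x => by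
        obtain ⟨x, rfl⟩ := N1.mkQ_surjective x
        show N1.mkQ (ρ (a + b) x) = N1.mkQ (ρ a x) + N1.mkQ (ρ b x)
        simp }
  have eα : ∀ Q x, N1.mkQ (ρ Q x) = α Q (N1.mkQ x) := fun _ _ => rfl
  have z : ∀ x, N1.mkQ x = 0 ↔ x ∈ N1 := fun x => Submodule.Quotient.mk_eq_zero N1
  have ds : Dsc α ℓ₀ := by
    refine ⟨fun v => ⟨K, n, hK, ?_, fun Q hQ => ?_⟩, (injective_iff_map_eq_zero _).2 fun v e => ?_⟩
    · obtain ⟨x, rfl⟩ := N1.mkQ_surjective v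
      rw [← map_nsmul, z]
      exact le _ (two x)
    · obtain ⟨x, rfl⟩ := N1.mkQ_surjective v
      rw [← eα, z]
      exact le _ (kil Q hQ x)
    · obtain ⟨x, rfl⟩ := N1.mkQ_surjective v
      rw [← eα, z] at e
      obtain ⟨m, e⟩ := e
      exact (z x).2 ⟨m + 1, by rw [pow_succ, map_mul]; exact e⟩
  obtain ⟨t, d, co⟩ := ex_core H hN ds
  let c : GQ →* Module.End O (P ⧸ N1) := (qH r N1 h2).comp χ
  have ec : ∀ g x, N1.mkQ (r (χ g) x) = c g (N1.mkQ x) := fun _ _ => rfl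
  have ca : ∀ g Q, Commute (c g) (α Q) := fun g Q => LinearMap.ext fun v => by
    obtain ⟨x, rfl⟩ := N1.mkQ_surjective v
    show N1.mkQ ((r (χ g) * ρ Q) x) = N1.mkQ ((ρ Q * r (χ g)) x)
    rw [(cm _ _).eq]
  have cc : ∀ g k, Commute (c g) (c k) := fun g k => (Commute.all (χ g) (χ k)).map (qH r N1 h2)
  have ct : ∀ g k, Commute (c g) (t k) := fun g k => LinearMap.ext fun v =>
    (co.cm (f := c g) (fun Q v => LinearMap.congr_fun (ca g Q).eq v) k v).1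
  have cd : ∀ g k, Commute (c g) (d k) := fun g k => LinearMap.ext fun v =>
    (co.cm (f := c g) (fun Q v => LinearMap.congr_fun (ca g Q).eq v) k v).2
  refine ⟨P ⧸ N1, inferInstance, inferInstance, N1.mkQ, α, c, t, d, co, ds,
    co.law.twist c cc ct cd fun v => ⟨χ.ker, inferInstance, hχ, fun u hu => ?_⟩, eα, ec,
    fun x e => (z x).1 e, fun x e => (z x).2 (le x e), ca, fun q φ => ?_⟩
  · rw [MonoidHom.comp_apply, MonoidHom.mem_ker.1 hu, map_one]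
    rfl
  · simp only [Dn, mul_sub, mul_smul_comm]
    rw [mul_assoc (c φ) (t φ), ← mul_assoc (t φ), ← (ct φ φ).eq]
    simp only [mul_assoc]

/-- **the three modules** -/
theorem newA {M q : ℕ} [NeZero M] [NeZero (M * q)] (H : GAL2) (H' : I2N) (ho : Odd (M * q))
    (hq : q.Prime) (hM : ¬ q ∣ M) {γ : SL(2, ℤ)} (hγ : AL1 M q γ)
    (ρ : Wd (M * q) →+* Module.End O P) (ρ0 : Wd M →+* Module.End O P) (j : PA (M * q) → PA M)
    (hj : ∀ ℓ, (j ℓ).1 = ℓ.1) (jT : ∀ ℓ, ρ0 (wT (j ℓ)) = ρ (wT ℓ))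
    (jS : ∀ ℓ, ρ0 (wS (j ℓ)) = ρ (wS ℓ)) (lq : PA M) (hlq : lq.1 = q)
    (r : C →* Module.End O P) (χ : GQ →* C) (hχ : IsOpen (χ.ker : Set GQ)) (N1 K : Submodule O P)
    (a1 : ∀ Q, ∀ x ∈ N1, ρ Q x ∈ N1) (a2 : ∀ Q, ∀ x ∈ N1, ρ0 Q x ∈ N1)
    (a3 : ∀ b, ∀ x ∈ N1, r b x ∈ N1) (b2 : ∀ Q, ∀ x ∈ K, ρ0 Q x ∈ K)
    (b3 : ∀ b, ∀ x ∈ K, r b x ∈ K) (cm : ∀ b Q, Commute (r b) (ρ Q))
    (cm0 : ∀ b Q, Commute (r b) (ρ0 Q)) (W : Finset ℕ) (hW : ∀ i ∈ W, 1 ≤ i) (n : ℕ)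
    (two : ∀ x, 2 ^ n • x ∈ N1) (kil : ∀ Q, (∀ i ∈ W, sg (M * q) i Q = 0) → ∀ x, ρ Q x ∈ N1)
    (kil0 : ∀ Q, (∀ i ∈ W, sg M i Q = 0) → ∀ x, ρ0 Q x ∈ K)
    (kiln : ∀ Q, KilN M q γ W Q → ∀ x ∈ K, ρ Q x ∈ N1)
    {O' Y E : Type} [CommRing O'] [AddCommGroup Y] [Module O' Y] [AddCommGroup E]
    {t d : GQ → Module.End O' Y} (law : Law t d) (ι : Y →+ E) (hι : Function.Injective ι)
    (Φ : P →+ E) (hΦ : ∀ x, Φ x = 0 ↔ x ∈ N1) (S : Finset ℕ)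
    (fr : ∀ (ℓ : PA (M * q)) φ, ℓ.1 ∉ S → IsFrob ℓ.1 φ → ∀ v x, ι v = Φ x →
      ι (t φ v) = Φ (r (χ φ) (ρ (wT ℓ) x)) ∧ ι (d φ v) = Φ (r (χ φ) (r (χ φ) (ρ (wS ℓ) x))))
    (ℓ₀ : PA (M * q)) (h0 : ℓ₀.1 ∉ S) {φ₀ : GQ} (f0 : IsFrob ℓ₀.1 φ₀)
    (i0 : Function.Injective (t φ₀)) {φ : GQ} (hφ : IsFrob q φ) {v : Y} {x : P} (e : ι v = Φ x)
    (hx : (q • (ρ0 (wT lq) * ρ0 (wT lq)) - (q + 1) ^ 2 • ρ0 (wS lq)) x ∈ N1) :
    Dn t d q φ (Dn t d q φ v) = 0 := by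
  classical
  obtain ⟨V1, _, _, π1, α1, c1, t1, d1, co1, ds1, l1, e1, ec1, z1, z1', ca1, dn1⟩ :=
    tw H ho ρ r χ hχ N1 a1 a3 cm W hW n two kil ℓ₀
  have st : ∀ f : Module.End O P, (∀ x ∈ K, f x ∈ K) → (∀ x ∈ N1, f x ∈ N1) →
      ∀ x ∈ K ⊔ N1, f x ∈ K ⊔ N1 := fun f u1 u2 x hx => by
    obtain ⟨y, hy, z, hz, rfl⟩ := Submodule.mem_sup.1 hx
    rw [map_add]
    exact Submodule.add_mem_sup (u1 y hy) (u2 z hz)
  obtain ⟨V0, _, _, π0, α0, c0, t0, d0, co0, ds0, l0, e0, ec0, z0, z0', ca0, dn0⟩ :=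
    tw H (Nat.odd_mul.1 ho).1 ρ0 r χ hχ (K ⊔ N1) (fun Q => st _ (b2 Q) (a2 Q))
      (fun b => st _ (b3 b) (a3 b)) cm0 W hW n (fun x => Submodule.mem_sup_right (two x))
      (fun Q hQ x => Submodule.mem_sup_left (kil0 Q hQ x)) (j ℓ₀)
  let A : ∀ {V : Type} [AddCommGroup V] [Module O V], (P →ₗ[O] V) → AddSubgroup (Y × V) :=
    fun π =>
    { carrier := {y | ∃ x, ι y.1 = Φ x ∧ π x = y.2}
      zero_mem' := ⟨0, by simp, by simp⟩
      add_mem' := by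
        rintro y y' ⟨x, a, b⟩ ⟨x', a', b'⟩
        exact ⟨x + x', by simp [a, a'], by simp [b, b']⟩
      neg_mem' := by
        rintro y ⟨x, a, b⟩
        exact ⟨-x, by simp [a], by simp [b]⟩ }
  let S' := S ∪ (2 * (M * q)).primeFactors
  have pa : ∀ ℓ : ℕ, ℓ.Prime → ℓ ∉ S' → ∃ l : PA (M * q), l.1 = ℓ ∧ l.1 ∉ S := fun ℓ hl hS =>
    ⟨⟨ℓ, hl, fun h => hS (Finset.mem_union_right _ (Nat.mem_primeFactors.2
      ⟨hl, h, mul_ne_zero two_ne_zero (NeZero.ne _)⟩))⟩, rfl,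
      fun h => hS (Finset.mem_union_left _ h)⟩
  have r1 := fun v w h => law_rel law l1 (A π1) S' (by
    rintro ℓ ψ hl hS hψ v _ ⟨x, a, rfl⟩
    obtain ⟨l, rfl, hl'⟩ := pa ℓ hl hS
    obtain ⟨u1, u2⟩ := fr l ψ hl' hψ v x a
    exact ⟨⟨_, u1, by rw [ec1, e1, co1.frT l hψ]; rfl⟩,
      ⟨_, u2, by rw [ec1, ec1, e1, co1.frS l hψ]; rfl⟩⟩) φ (v := v) (w := w) h
  have r0 := fun v w h => law_rel law l0 (A π0) S' (by
    rintro ℓ ψ hl hS hψ v _ ⟨x, a, rfl⟩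
    obtain ⟨l, rfl, hl'⟩ := pa ℓ hl hS
    obtain ⟨u1, u2⟩ := fr l ψ hl' hψ v x a
    exact ⟨⟨_, u1, by rw [ec0, ← jT, e0, co0.frT (j l) (hj l ▸ hψ)]; rfl⟩,
      ⟨_, u2, by rw [ec0, ec0, ← jS, e0, co0.frS (j l) (hj l ▸ hψ)]; rfl⟩⟩) φ (v := v) (w := w) h
  obtain ⟨y, hy, hy0⟩ := dn_rel (t := t) (d := d) (t' := fun g => c0 g * t0 g)
    (d' := fun g => c0 g * c0 g * d0 g) (φ := φ) r0 q (show (v, π0 x) ∈ A π0 from ⟨x, e, rfl⟩)
  have k0 : Dn t0 d0 q φ (π0 x) = 0 := by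
    rw [← z0' _ (Submodule.mem_sup_right hx), Dn, co0.frT lq (hlq ▸ hφ), co0.frS lq (hlq ▸ hφ)]
    simp only [LinearMap.sub_apply, LinearMap.smul_apply, Module.End.mul_apply, map_sub, map_nsmul,
      e0]
  rw [dn0, Module.End.mul_apply, k0, map_zero] at hy0
  obtain ⟨m, hm⟩ := z0 y hy0
  rw [map_pow, jT, ← map_pow] at hm
  obtain ⟨y1, u1, y2, u2, u3⟩ := Submodule.mem_sup.1 hm
  have k1 := co1.i2 H' ho hq hM hγ hW (v := π1 (ρ (wT ℓ₀ ^ m) y)) (fun Q hQ => by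
    rw [← u3, map_add, z1' _ u2, add_zero, ← e1]
    exact z1' _ (kiln Q hQ _ u1)) hφ
  have cm1 := fun g w => co1.cm (f := α1 (wT ℓ₀ ^ m))
    (fun Q v => LinearMap.congr_fun (ds1.comm _ Q).eq v) g w
  have k2 : Dn t1 d1 q φ (π1 y) = 0 := by
    have inj : Function.Injective (α1 (wT ℓ₀ ^ m)) := by
      rw [map_pow, Module.End.coe_pow]
      exact ds1.inj.iterate m
    refine (injective_iff_map_eq_zero _).1 inj _ ?_
    rw [e1, ← (cm1 φ _).1, ← (cm1 φ _).1, ← (cm1 φ _).2] at k1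
    simp only [Dn, LinearMap.sub_apply, LinearMap.smul_apply, Module.End.mul_apply, map_sub,
      map_nsmul, k1, sub_self]
  obtain ⟨w, hw, hw0⟩ := dn_rel (t := t) (d := d) (t' := fun g => c1 g * t1 g)
    (d' := fun g => c1 g * c1 g * d1 g) (φ := φ) r1 q (show (_, π1 y) ∈ A π1 from ⟨y, hy, rfl⟩)
  rw [dn1, Module.End.mul_apply, k2, map_zero] at hw0
  obtain ⟨k, hk⟩ := z1 w hw0
  have fin : ∀ (k : ℕ) v w, ι v = Φ w → ρ (wT ℓ₀ ^ k) w ∈ N1 → v = 0 := by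
    intro k
    induction k with
    | zero =>
      intro v w a b
      rw [pow_zero, map_one] at b
      exact hι (a.trans (((hΦ w).2 b).trans (map_zero ι).symm))
    | succ k ih =>
      intro v w a b
      refine i0 ((ih _ _ (fr ℓ₀ φ₀ h0 f0 v w a).1 ?_).trans (map_zero _).symm)
      rw [pow_succ, map_mul] at b
      rw [← Module.End.mul_apply, ← (cm _ _).eq]
      exact a3 _ _ b
  exact fin k _ w hw hk

end Vale.Agent.P022D.Nw
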