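import Vale.Agent.P022D.V.All1

/-!
# P022D, new vectors: the formal operators at the Iwahori level
-/

set_option linter.all false

open Matrix
open scoped MatrixGroups

noncomputable section

namespace Vale.Agent.P022D.Nw

open Vale.Agent.P022D.V

theorem ring_Z {A : Type} [Ring A] (W T κ : A) (q : ℕ) (hW : W * W = κ)
    (hT : T * T = (q + 1 : ℕ) • T) (hc : κ * T = T * κ) (Z : A)
    (hZ : Z = W * T + T * W - (q + 1 : ℕ) • W) :
    T * Z = T * W * T ∧ T * W * Z = T * W * (T * W) ∧ Z * Z - (q + 1) ^ 2 • κ =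
      (Z * W - (q + 1 : ℕ) • κ) * T + (Z - (q + 1 : ℕ) • W) * (T * W) := by
  have e1 : T * (W * (W * T)) = (q + 1 : ℕ) • (T * κ) := by
    rw [← mul_assoc W, hW, hc, ← mul_assoc, hT, smul_mul_assoc]
  have e2 : Z * W = W * (T * W) + κ * T - (q + 1 : ℕ) • κ := by
    rw [hZ, sub_mul, add_mul, smul_mul_assoc, mul_assoc T, hW, hc, mul_assoc]
  refine ⟨?_, ?_, ?_⟩
  · rw [hZ, mul_sub, mul_add, ← mul_assoc T T, hT, smul_mul_assoc, mul_smul_comm, mul_assoc,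
      add_sub_cancel_right]
  · rw [hZ, mul_sub, mul_add, mul_smul_comm, mul_assoc T W (W * T), e1, mul_assoc T W W, hW,
      add_sub_cancel_left]
  · have e3 : Z * Z = Z * W * T + Z * (T * W) - (q + 1 : ℕ) • (Z * W) := by
      rw [mul_assoc, ← mul_smul_comm, ← mul_add, ← mul_sub, ← hZ]
    rw [e3, sub_mul, sub_mul, smul_mul_assoc, smul_mul_assoc]
    conv_lhs => rw [show (q + 1 : ℕ) • (Z * W) = _ from congrArg _ e2]
    module

variable {M M₀ q : ℕ} {S R : Type} [CommRing S] [CommRing R] [Algebra S R]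

theorem B_U {w : FT M R} (hw : w ∈ Iv S R (Bq M M₀)) : w ∈ Iv S R (Uq M M₀) := by
  rintro _ ⟨x, rfl⟩
  exact hw _ ⟨Wq.un_K x, by simp [un_coe]⟩

theorem K_B {w : FT M R} (hw : w ∈ Iv S R (Kq M M₀)) : w ∈ Iv S R (Bq M M₀) :=
  fun g hg => hw g hg.1

theorem dec (h : Sp M M₀ q) {g : GM M} (hg : g.val 1 0 = 0) :
    ∃ k ∈ Kq M q, ∀ w ∈ Iv S R (Bq M M₀), rt S R g w = rt S R k w := by
  obtain ⟨b, hb, k, hk, rfl⟩ := (grp M M₀ q h).2.2.2.2.1 g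
  refine ⟨k, hk, fun w hw => ?_⟩
  have a1 := h.memKq.1 hk 1 0
  have a2 := h.memKq.1 hk 1 1
  have a3 := h.memK0.1 hb 1 0
  rw [gmul] at hg
  simp only [ne_eq, one_ne_zero, not_false_eq_true, one_apply_ne, one_apply_eq, mul_zero] at a1 a2 a3
  have e : b.val 1 0 = 0 := h.ext
    (by linear_combination (M₀ : ZMod M) * hg - b.val 0 0 * a1 - b.val 1 0 * a2)
    (by rw [a3, mul_zero])
  rw [← rt_rt, mem_Iv.1 hw b ⟨hb, e⟩]

theorem rtK_B (h : Sp M M₀ q) {k : GM M} (hk : k ∈ Kq M q) {w : FT M R}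
    (hw : w ∈ Iv S R (Bq M M₀)) : rt S R k w ∈ Iv S R (Bq M M₀) := mem_Iv.2 fun b hb => by
  rw [rt_rt, (grp M M₀ q h).2.2.2.1 b hb.1 k hk, ← rt_rt, mem_Iv.1 hw b hb]

theorem rt_B (h : Sp M M₀ q) {g : GM M} (hg : g.val 1 0 = 0) {w : FT M R}
    (hw : w ∈ Iv S R (Bq M M₀)) : rt S R g w ∈ Iv S R (Bq M M₀) := by
  obtain ⟨k, hk, e⟩ := dec (S := S) (R := R) h hg
  rw [e w hw]
  exact rtK_B h hk hw

theorem Ts_K (h : Sp M M₀ q) {s : GM M} (hs : IsS M M₀ s) {k : GM M} (hk : k ∈ Kq M q)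
    (w : FT M R) : Ts S R M₀ q s (rt S R k w) = rt S R k (Ts S R M₀ q s w) := by
  rw [Ts_apply, Ts_apply, map_sum]
  refine Finset.sum_congr rfl fun x _ => ?_
  rw [rt_rt, rt_rt, (grp M M₀ q h).2.2.2.1 _ (Wq.K_mul h.dvd (Wq.un_K _) hs.1) k hk]

theorem Tr_K (h : Sp M M₀ q) {s : GM M} (hs : IsS M M₀ s) {w : FT M R}
    (hw : w ∈ Iv S R (Bq M M₀)) : (1 + Ts S R M₀ q s) w ∈ Iv S R (Kq M M₀) :=
  Wq.tr_mem grp h hs hw

theorem Ts_B (h : Sp M M₀ q) {s : GM M} (hs : IsS M M₀ s) {w : FT M R}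
    (hw : w ∈ Iv S R (Bq M M₀)) : Ts S R M₀ q s w ∈ Iv S R (Bq M M₀) := by
  simpa using sub_mem (K_B (Tr_K h hs hw)) hw

theorem Tr_of_K (h : Sp M M₀ q) {s : GM M} (hs : IsS M M₀ s) {w : FT M R}
    (hw : w ∈ Iv S R (Kq M M₀)) : (1 + Ts S R M₀ q s) w = (q + 1 : ℕ) • w := by
  have e : ∀ x : ZMod M, rt S R (un ((M₀ : ZMod M) * x) * s) w = w := fun x =>
    mem_Iv.1 hw _ (Wq.K_mul h.dvd (Wq.un_K _) hs.1)
  simp only [LinearMap.add_apply, Module.End.one_apply, Ts_apply, e, Finset.sum_const,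
    Finset.card_range, succ_nsmul']

theorem W_B (h : Sp M M₀ q) {z : R} (hz : z ^ M = 1) {w : FT M R} (hw : w ∈ Iv S R (Bq M M₀)) :
    Wa S R M M₀ q w ∈ Iv S R (Bq M M₀) ∧ Wb S R M M₀ q z w ∈ Iv S R (Bq M M₀) := by
  obtain ⟨-, ⟨a2, a3⟩, -, a4, -⟩ := wf1 S R M M₀ q z h hz w (B_U hw)
  have k : ∀ b ∈ Bq M M₀, rt S R b (Wa S R M M₀ q w) = Wa S R M M₀ q w ∧
      rt S R b (Wb S R M M₀ q z w) = Wb S R M M₀ q z w := by
    intro b hb
    obtain ⟨v, hv, a, d, ha, hd, rfl⟩ := (grp M M₀ q h).2.2.2.2.2.2.1 b hb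
    have e := mem_Iv.1 hw (dg d a) ⟨Wq.dg_K hd ha, rfl⟩
    obtain ⟨-, e1, e2⟩ := a4 d a (by
      obtain ⟨x, hx⟩ := ha
      obtain ⟨y, hy⟩ := hd
      exact ⟨y - x, by rw [hx, hy]; ring⟩)
    rw [e] at e1 e2
    rw [← rt_rt, ← rt_rt, ← e1, ← e2]
    exact ⟨mem_Iv.1 a2 v hv, mem_Iv.1 a3 v hv⟩
  exact ⟨mem_Iv.2 fun b hb => (k b hb).1, mem_Iv.2 fun b hb => (k b hb).2⟩

variable (S R) in
/-- the operators which commute with the operators at `q` -/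
def Cm (M M₀ q : ℕ) (z : R) (s : GM M) : Subring (Module.End S (FT M R)) where
  carrier := {A | ∀ w ∈ Iv S R (Bq M M₀), A w ∈ Iv S R (Bq M M₀) ∧
    Wa S R M M₀ q (A w) = A (Wa S R M M₀ q w) ∧ Wb S R M M₀ q z (A w) = A (Wb S R M M₀ q z w) ∧
    Ts S R M₀ q s (A w) = A (Ts S R M₀ q s w) ∧
    rt S R (dg (-1) (-1)) (A w) = A (rt S R (dg (-1) (-1)) w)}
  one_mem' w hw := ⟨hw, rfl, rfl, rfl, rfl⟩
  zero_mem' w hw := ⟨zero_mem _, map_zero _, map_zero _, map_zero _, map_zero _⟩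
  mul_mem' := fun {A B} hA hB w hw => by
    obtain ⟨b0, b1, b2, b3, b4⟩ := hB w hw
    obtain ⟨a0, a1, a2, a3, a4⟩ := hA _ b0
    simp only [Module.End.mul_apply]
    exact ⟨a0, by rw [a1, b1], by rw [a2, b2], by rw [a3, b3], by rw [a4, b4]⟩
  add_mem' := fun {A B} hA hB w hw => by
    obtain ⟨b0, b1, b2, b3, b4⟩ := hB w hw
    obtain ⟨a0, a1, a2, a3, a4⟩ := hA w hw
    simp only [LinearMap.add_apply, map_add, a1, a2, a3, a4, b1, b2, b3, b4, and_true]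
    exact add_mem a0 b0
  neg_mem' := fun {A} hA w hw => by
    obtain ⟨a0, a1, a2, a3, a4⟩ := hA w hw
    simp only [LinearMap.neg_apply, map_neg, a1, a2, a3, a4, and_true]
    exact neg_mem a0

section

variable (h : Sp M M₀ q) {z : R} (hz : z ^ M = 1) {s : GM M} (hs : IsS M M₀ s)
include h hz hs

/-- upper triangular elements -/
theorem cm_rt {g : GM M} (hg : g.val 1 0 = 0) : (rt S R g).toLinearMap ∈ Cm S R M M₀ q z s := by
  intro w hw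
  obtain ⟨k, hk, e⟩ := dec (S := S) (R := R) h hg
  obtain ⟨-, e1, e2⟩ := (wf1 S R M M₀ q z h hz w (B_U hw)).2.2.1 k hk
  simp only [AlgHom.toLinearMap_apply]
  refine ⟨rt_B h hg hw, ?_, ?_, ?_, (rt_sc _ _ _).symm⟩
  · rw [e w hw, e1, e _ (W_B h hz hw).1]
  · rw [e w hw, e2, e _ (W_B h hz hw).2]
  · rw [e w hw, Ts_K h hs hk, e _ (Ts_B h hs hw)]

theorem cm_dg (a d : (ZMod M)ˣ) : (rt S R (dg a d)).toLinearMap ∈ Cm S R M M₀ q z s :=
  cm_rt h hz hs rfl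

theorem cm_ep (k : ℕ) : ep S R M k ∈ Cm S R M M₀ q z s := zsmul_mem (cm_dg h hz hs _ _) _

theorem cm_pw (i p : ℕ) : pw S R M i p ∈ Cm S R M M₀ q z s :=
  add_mem (one_mem _) (nsmul_mem (sub_mem (one_mem _) (cm_ep h hz hs _)) _)

theorem cm_S2 (i p : ℕ) (u : (ZMod M)ˣ) : S2 S R i p u ∈ Cm S R M M₀ q z s :=
  mul_mem (nsmul_mem (cm_dg h hz hs _ _) _) (cm_pw h hz hs _ _)

theorem cm_T2 (i : ℕ) {p : ℕ} {u : (ZMod M)ˣ} (hu : (u : ZMod M) = p) :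
    T2 S R i p u ∈ Cm S R M M₀ q z s := by
  have a := fun w (hw : w ∈ Iv S R (Bq M M₀)) =>
    (wf1 S R M M₀ q z h hz w (B_U hw)).2.2.2.2.1 p u hu
  refine add_mem (fun w hw => ⟨Iv_Uf p u hw, (a w hw).2.2.1, (a w hw).2.2.2.1, ?_, rt_Uf _ _ _ _⟩)
    (nsmul_mem (mul_mem (fun w hw => ⟨Iv_Vf p u hw, (a w hw).2.2.2.2.1, (a w hw).2.2.2.2.2, ?_,
      rt_Vf _ _ _ _⟩) (cm_pw h hz hs _ _)) _)
  · simp only [Ts_apply, map_sum, rt_Uf]
  · simp only [Ts_apply, map_sum, rt_Vf]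

theorem W2_B (i : ℕ) {w : FT M R} (hw : w ∈ Iv S R (Bq M M₀)) :
    W2 S R M M₀ q z i w ∈ Iv S R (Bq M M₀) :=
  add_mem (nsmul_mem (W_B h hz (Iv_pw i q hw)).1 _) (W_B h hz hw).2

end

theorem Cm.tr {z : R} {s : GM M} {A : Module.End S (FT M R)} (hA : A ∈ Cm S R M M₀ q z s)
    {w : FT M R} (hw : w ∈ Iv S R (Bq M M₀)) :
    (1 + Ts S R M₀ q s) (A w) = A ((1 + Ts S R M₀ q s) w) := by
  simp only [LinearMap.add_apply, Module.End.one_apply, map_add, (hA w hw).2.2.2.1]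

theorem Cm.W2 {z : R} {s : GM M} {A : Module.End S (FT M R)} (hA : A ∈ Cm S R M M₀ q z s) (i : ℕ)
    {w : FT M R} (hw : w ∈ Iv S R (Bq M M₀)) :
    W2 S R M M₀ q z i (A w) = A (W2 S R M M₀ q z i w) := by
  have e : pw S R M i q (A w) = A (pw S R M i q w) := by
    simp only [pw_apply, ep_apply, map_add, map_nsmul, map_sub, map_zsmul, (hA w hw).2.2.2.2]
  rw [W2_apply, W2_apply, e, (hA _ (Iv_pw i q hw)).2.1, (hA w hw).2.2.1, map_add, map_nsmul]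

theorem TC_pw {z : R} (hz : PZ M z) (i p : ℕ) {w : FT M R} (hw : TC z w) :
    TC z (pw S R M i p w) := by
  intro g n
  have a := hw g n
  have b := ((tn S R M).2 z hz w hw).2.1 (dg (-1) (-1)) g n
  simp only [pw_apply, ep_apply, Pi.add_apply, Pi.smul_apply, Pi.sub_apply, map_add, map_nsmul,
    map_sub, map_zsmul]
  rw [← a, ← b]
  simp only [nsmul_eq_mul, zsmul_eq_mul]
  ring

/-- the square of `W` on two weights -/
theorem W2_W2 (h : Sp M M₀ q) {z : R} (hz : PZ M z) {s : GM M} (hs : IsS M M₀ s) {c : (ZMod M)ˣ}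
    (hc : IsC M M₀ q c) (i : ℕ) {w : FT M R} (hw : w ∈ Iv S R (Bq M M₀)) (ht : TC z w) :
    W2 S R M M₀ q z i (W2 S R M M₀ q z i w) = q • S2 S R i q c w := by
  have p := cm_pw (S := S) h hz.pow hs i q
  have F := (All.wf2 S R M M₀ q z h s c hz hs hc).1
  obtain ⟨-, e2, -⟩ := F w (B_U hw) ht
  obtain ⟨e1, -, e3, -⟩ := F _ (B_U (Iv_pw i q hw)) (TC_pw hz i q ht)
  obtain ⟨e4, -⟩ := F _ (B_U (Iv_pw i q (Iv_pw i q hw))) (TC_pw hz i q (TC_pw hz i q ht))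
  rw [W2_apply, W2_apply, map_add, map_add, map_add, map_nsmul, map_nsmul, map_nsmul,
    ← (p _ (Iv_pw i q hw)).2.1, ← (p w hw).2.2.1, e4, e2, S2_apply, Sf_apply, ← e3]
  module

theorem TC_ifl (h : Sp M M₀ q) {z : R} {y : FT M₀ R} (ht : TC z (ifl S R h.dvd y)) :
    TC (z ^ q) y := by
  intro g n
  obtain ⟨g, rfl⟩ := pr_surj h.dvd h.Mpos.ne' g
  have := ht g (q * n)
  rwa [ifl_apply, ifl_apply, h.div, Vo_coeff, Vo_coeff, if_pos (dvd_mul_right _ _),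
    if_pos (dvd_mul_right _ _), Nat.mul_div_cancel_left _ h.qpos, map_mul, pr_un, map_one,
    pow_mul] at this

theorem um_c (h : Sp M M₀ q) {c : (ZMod M)ˣ} (hc : IsC M M₀ q c) :
    ((Units.map (ZMod.castHom h.dvd (ZMod M₀) : ZMod M →* ZMod M₀) c : (ZMod M₀)ˣ) : ZMod M₀) =
      q := by
  rw [← map_natCast (ZMod.castHom h.dvd (ZMod M₀))]
  exact (Wq.cast_eq h.dvd _ _).2 hc.1

/-- the trace of `W` on old vectors, two weights -/
theorem Tr_W2 (h : Sp M M₀ q) {z : R} (hz : PZ M z) {s : GM M} (hs : IsS M M₀ s) {u : (ZMod M₀)ˣ}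
    (hu : (u : ZMod M₀) = q) (i : ℕ) {y : FT M₀ R} (ht : TC z (ifl S R h.dvd y)) :
    (1 + Ts S R M₀ q s) (W2 S R M M₀ q z i (ifl S R h.dvd y)) =
      q • ifl S R h.dvd (T2 S R i q u y) := by
  obtain ⟨c, hc⟩ := (grp M M₀ q h).2.1
  haveI : NeZero M := ⟨h.Mpos.ne'⟩
  have hc' : Units.map (ZMod.castHom h.dvd (ZMod M₀) : ZMod M →* ZMod M₀) c = u :=
    Units.ext ((um_c h hc).trans hu.symm)
  have k : ∀ y : FT M₀ R, TC z (ifl S R h.dvd y) →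
      (1 + Ts S R M₀ q s) (Wa S R M M₀ q (ifl S R h.dvd y)) = ifl S R h.dvd (Vf S R q u y) ∧
      (1 + Ts S R M₀ q s) (Wb S R M M₀ q z (ifl S R h.dvd y)) =
        q • ifl S R h.dvd (Uf S R q u y) := by
    intro y ht
    have iB : ifl S R h.dvd y ∈ Iv S R (Bq M M₀) := K_B (Ds.ifl_Iv h.dvd y)
    have a1 := (wf1 S R M M₀ q z h hz.pow _ (B_U iB)).1
    have A := ((All.wf2 S R M M₀ q z h s c hz hs hc).1 _ (B_U iB) ht).2.2.2.2
    constructor <;> funext g <;> obtain ⟨k, hk, a, ha, rfl⟩ := (grp M M₀ q h).2.2.2.2.1 g <;>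
      have hD := Wq.Dq_K h ha
    · rw [iv_val (Tr_K h hs (W_B h hz.pow iB).1) hk, iv_val (Ds.ifl_Iv h.dvd _) hk,
        LinearMap.add_apply, Pi.add_apply, (A a hD).1, add_zero, Module.End.one_apply,
        (a1 s c a hs hc hD).1, ifl_apply, ifl_apply, h.div, map_mul, map_mul,
        (Wq.mem_Kq h.dvd s).1 hs.1, mul_one, pr_dg, hc', map_one, Vf_apply]
    · rw [iv_val (Tr_K h hs (W_B h hz.pow iB).2) hk, Pi.smul_apply, iv_val (Ds.ifl_Iv h.dvd _) hk,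
        LinearMap.add_apply, Pi.add_apply, (A a hD).2, Module.End.one_apply,
        (a1 s c a hs hc hD).2.1, zero_add, ifl_apply, ifl_apply, h.div, map_mul, pr_dg, hc',
        map_one, Uo_Vo h.qpos, Uf_apply]
  rw [W2_apply, map_add, map_nsmul, ← ifl_pw, (k _ (by rw [ifl_pw]; exact TC_pw hz i q ht)).1,
    (k y ht).2, T2_apply, map_add, map_nsmul]
  module

theorem ifl_dg {M₀ : ℕ} (h : M₀ ∣ M) (a d : (ZMod M)ˣ) (y : FT M₀ R) :
    rt S R (dg a d) (ifl S R h y) = ifl S R h (rt S R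
      (dg (Units.map (ZMod.castHom h (ZMod M₀) : ZMod M →* ZMod M₀) a)
        (Units.map (ZMod.castHom h (ZMod M₀) : ZMod M →* ZMod M₀) d)) y) := by
  rw [← ifl_rt, pr_dg]

end Vale.Agent.P022D.Nw
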