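import Vale.Agent.P022D.V.Spec2
import Vale.Agent.P022D.G.Ops

/-!
# P022D, new vectors: statements
-/

set_option linter.all false

open Matrix
open scoped MatrixGroups

noncomputable section

namespace Vale.Agent.P022D.Nw

open Vale.Agent.P022 Vale.Agent.P022D.V

variable (O : Type) [CommRing O] [Co O]

/-- every tuple is classical after a twist -/
def CLG0 : Prop := ∀ (M N₁ N₂ N' : ℕ) [NeZero N'] (u : PA N' → (ZMod M)ˣ) (i : ℕ), Odd M →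
  M = N₁ * N₂ → Nat.Coprime N₁ N₂ → N' = N₁ ^ 2 * N₂ → (∀ ℓ, (u ℓ : ZMod M) = (ℓ.1 : ZMod M)) →
  ∀ Q : G.Wd N', G.sg N' i Q = 0 → ∀ w ∈ L O M (i + 1) ⊓ Iv O _ (Uq M N₁),
    wd O (AA O) i u u Q w = 0

/-- new tuples are new forms -/
def CLN : Prop := ∀ (M M₀ q : ℕ) [NeZero (M₀ ^ 2 * q)] (u : PA (M₀ ^ 2 * q) → (ZMod M)ˣ) (i : ℕ)
  (s : GM M) (γ : SL(2, ℤ)), Sp M M₀ q → IsS M M₀ s → (∀ ℓ, (u ℓ : ZMod M) = (ℓ.1 : ZMod M)) →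
  1 ≤ i → G.AL1 (M₀ ^ 2) q γ → ∀ Q : G.Wd (M₀ ^ 2 * q), G.KilN (M₀ ^ 2) q γ {i} Q →
  ∀ w ∈ L O M (i + 1) ⊓ Iv O _ (Bq M M₀), (1 + Ts O _ M₀ q s) w = 0 →
    (1 + Ts O _ M₀ q s) (W1 O _ M M₀ q (zA O M) (i + 1) w) = 0 → wd O (AA O) i u u Q w = 0

/-- `q t(φ)² - (q + 1)² d(φ)` -/
def Dn {O' Y : Type} [CommRing O'] [AddCommGroup Y] [Module O' Y] (t d : GQ → Module.End O' Y)
    (q : ℕ) (φ : GQ) : Module.End O' Y := q • (t φ * t φ) - (q + 1) ^ 2 • d φ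

/-- a Galois module inside the tuples: Frobenius elements act by `T2`, `S2`, one of them
injectively -/
structure Gv {O' Y : Type} [CommRing O'] [AddCommGroup Y] [Module O' Y]
    (t d : GQ → Module.End O' Y) (R : Type) [CommRing R] [Algebra O R] (M i : ℕ)
    (ι : Y →+ FT M R) : Prop where
  law : G.Law t d
  inj : Function.Injective ι
  fr : ∃ S : Finset ℕ, (∀ (p : ℕ) (u : (ZMod M)ˣ) (φ : GQ), p.Prime → p ∉ S → (u : ZMod M) = p →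
    IsFrob p φ → ∀ v, ι (t φ v) = T2 O R i p u (ι v) ∧ ι (d φ v) = S2 O R i p u (ι v)) ∧
    ∃ (p : ℕ) (φ : GQ), p.Prime ∧ p ∉ S ∧ ¬ p ∣ 2 * M ∧ IsFrob p φ ∧ Function.Injective (t φ)

/-- **new vectors are killed by `D²`**, divisible carrier -/
def NEWD : Prop := ∀ (M M₀ q i : ℕ) (s : GM M), Sp M M₀ q → 3 ≤ M → IsS M M₀ s →
  ∀ (O' Y : Type) [CommRing O'] [AddCommGroup Y] [Module O' Y] (t d : GQ → Module.End O' Y)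
  (ι : Y →+ FT M (RD O)), Gv O t d (RD O) M i ι → ∀ φ, IsFrob q φ →
  ∀ v, ι v ∈ XD O M i ⊓ Iv O _ (Bq M M₀) → (1 + Ts O _ M₀ q s) (ι v) = 0 →
    (1 + Ts O _ M₀ q s) (W2 O _ M M₀ q (zD O M) i (ι v)) = 0 → Dn t d q φ (Dn t d q φ v) = 0

/-- the same modulo `ϖ` -/
def NEWR : Prop := ∀ (M M₀ q i : ℕ) (s : GM M) (ϖ : O), Sp M M₀ q → 3 ≤ M → IsS M M₀ s → ϖ ≠ 0 →
  ∀ (O' Y : Type) [CommRing O'] [AddCommGroup Y] [Module O' Y] (t d : GQ → Module.End O' Y)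
  (ι : Y →+ FT M (RR ϖ)), Gv O t d (RR ϖ) M i ι → ∀ φ, IsFrob q φ →
  ∀ v, ι v ∈ V2 M (i + 1) ϖ ⊓ Iv O _ (Bq M M₀) → (1 + Ts O _ M₀ q s) (ι v) = 0 →
    (1 + Ts O _ M₀ q s) (W2 O _ M M₀ q (zR M ϖ) i (ι v)) = 0 → Dn t d q φ (Dn t d q φ v) = 0

end Vale.Agent.P022D.Nw
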