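import Vale.Agent.P022D.Nw.Defs
import Vale.Agent.P022D.V.Cla
import Vale.Agent.P022D.V.Wl
import Vale.Agent.P022D.V.Grp

/-!
# P022D, row CLN: new tuples are new forms
-/

set_option linter.all false

open UpperHalfPlane hiding I
open Matrix Function.Periodic CongruenceSubgroup
open scoped MatrixGroups ModularForm

noncomputable section

namespace Vale.Agent.P022D.V.Cl

open Vale.Agent.P022 Vale.Agent.P022.H218.L3 Vale.Agent.P027M.M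
open Vale.Agent.P022D.Trc (sz sz_mul sz_SL sz_smul sz_scalar SL_pos)

variable {O : Type} [CommRing O] [Co O] {M M₀ q k : ℕ}

theorem sz_sl (k : ℕ) (f : ℍ → ℂ) (A : Matrix (Fin 2) (Fin 2) ℤ) : sz (k : ℤ) f A = sl k f A := rfl

/-- the translation -/
def tl (x : ℤ) : SL(2, ℤ) := ⟨!![1, x; 0, 1], by simp [Matrix.det_fin_two]⟩

theorem rd_tl (x : ℤ) : rd M (tl x) = un (x : ZMod M) := by
  refine gext ?_ ?_ ?_ ?_ <;> rw [rd_apply] <;> simp [tl, un_coe]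

theorem perm (h : Sp M M₀ q) {A : Type} [AddCommMonoid A] (φ : ZMod M → A) {t : ZMod M}
    (ht : IsUnit t) : ∑ j : Fin q, φ (M₀ * ((j.1 : ZMod M) * t)) =
      ∑ x ∈ Finset.range q, φ (M₀ * (x : ZMod M)) := by
  haveI : NeZero M := ⟨h.Mpos.ne'⟩
  have ex : ∀ y : ZMod M, ∃ x : Fin q, (M₀ : ZMod M) * (x.1 : ZMod M) = M₀ * y := fun y => by
    obtain ⟨n, rfl⟩ := ZMod.natCast_zmod_surjective y
    refine ⟨⟨n % q, Nat.mod_lt _ h.qpos⟩, ?_⟩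
    have e : ((n % q : ℕ) : ZMod M) + q * ((n / q : ℕ) : ZMod M) = n := by
      exact_mod_cast congrArg (Nat.cast : ℕ → ZMod M) (Nat.mod_add_div n q)
    linear_combination (M₀ : ZMod M) * e - ((n / q : ℕ) : ZMod M) * h.zero
  choose π hπ using ex
  have hi : Function.Injective fun j : Fin q => π ((j.1 : ZMod M) * t) := by
    intro i j hij
    have e := (hπ ((i.1 : ZMod M) * t)).symm.trans ((congrArg (fun x : Fin q =>
      (M₀ : ZMod M) * (x.1 : ZMod M)) hij).trans (hπ _))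
    obtain ⟨r, hr⟩ := ht.exists_right_inv
    have e2 := (h.int_dvd ((i.1 : ℤ) - j.1)).1 (by
      push_cast
      linear_combination r * e - ((M₀ : ZMod M) * ((i.1 : ZMod M) - j.1)) * hr)
    have := Int.eq_zero_of_abs_lt_dvd e2 (by have := i.2; have := j.2; rw [abs_lt]; omega)
    exact Fin.ext (by omega)
  rw [Finset.sum_range (fun x => φ (M₀ * (x : ZMod M)))]
  exact Fintype.sum_bijective _ (Finite.injective_iff_bijective.1 hi) _ _ fun j => by rw [hπ]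

theorem U_of_B {S R : Type} [CommRing S] [CommRing R] [Algebra S R] {w : FT M R}
    (h : w ∈ Iv S R (Bq M M₀)) : w ∈ Iv S R (Uq M M₀) := by
  refine mem_Iv.2 ?_
  rintro _ ⟨x, rfl⟩
  refine mem_Iv.1 h _ ⟨fun i j => ?_, rfl⟩
  fin_cases i <;> fin_cases j
  · exact ⟨0, by simp [un_coe]⟩
  · exact ⟨x, by simp [un_coe]⟩
  · exact ⟨0, by simp [un_coe]⟩
  · exact ⟨0, by simp [un_coe]⟩

/-- the Atkin-Lehner element acts as `s` -/
theorem rp_s (h : Sp M M₀ q) {s : GM M} (hs : IsS M M₀ s) {γ : SL(2, ℤ)}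
    (hγ : G.AL1 (M₀ ^ 2) q γ) {w : FT M (AA O)} (hw : w ∈ L O M k)
    (hB : w ∈ Iv O (AA O) (Bq M M₀)) {f : ℍ → ℂ} {a e : (ZMod M)ˣ}
    (hf : Rp M M₀ f (w (dg a e))) : Rp M M₀ (f ∣[(k : ℤ)] γ) (w (dg a e * s)) := by
  obtain ⟨c, hc⟩ := hγ.c
  obtain ⟨d, hd⟩ := hγ.d
  obtain ⟨γ', e0, e1, e2, e3, e4⟩ := ex_cj (N := M₀) (δ := γ) (c := M₀ * c) (by
    rw [hc]; push_cast; ring)
  have z := h.zero
  have hdet := γ'.det_coe
  rw [Matrix.det_fin_two] at hdet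
  have d0 := congrArg (Int.cast : ℤ → ZMod M) hdet
  have d1 := congrArg (Int.cast : ℤ → ZMod M) e2
  have d2 := congrArg (Int.cast : ℤ → ZMod M) e3
  have d3 := congrArg (Int.cast : ℤ → ZMod M) (e4 ▸ hd : γ' 1 1 - 1 = _)
  have d4 := (h.int_dvd _).2 (e4 ▸ hγ.q : (q : ℤ) ∣ γ' 1 1)
  push_cast at d0 d1 d2 d3
  have q1 : (q : ZMod M) * (γ' 0 1 : ℤ) = 0 := by rw [d1]; linear_combination (γ 0 1 : ℤ) * z
  have q2 : (q : ZMod M) * (γ' 1 0 : ℤ) = 0 := by rw [d2]; linear_combination (c : ZMod M) * z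
  have q3 : (q : ZMod M) * (γ' 1 1 : ℤ) = q := by
    linear_combination (q : ZMod M) * d3 + (M₀ * d : ZMod M) * z
  have q0 : (q : ZMod M) * (γ' 0 0 : ℤ) = q := by
    linear_combination (q : ZMod M) * d0 - ((γ' 0 0 : ℤ) : ZMod M) * q3 +
      ((γ' 1 0 : ℤ) : ZMod M) * q1
  have s0 := h.memK0.1 hs.1
  have s00 : (q : ZMod M) * s.val 0 0 = q := by simpa using s0 0 0
  have s01 : (q : ZMod M) * s.val 0 1 = 0 := by simpa using s0 0 1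
  have s10 : (q : ZMod M) * s.val 1 0 = 0 := by simpa using s0 1 0
  have s11 : (q : ZMod M) * s.val 1 1 = q := by simpa using s0 1 1
  have t00 : (M₀ : ZMod M) * s.val 0 0 = 0 := by simpa using congrFun (congrFun hs.2 0) 0
  have i1 := a.inv_mul
  have i2 := e.inv_mul
  have k10 : (q : ZMod M) * (dg a⁻¹ e⁻¹ * (rd M γ' * (dg a e * s))).val 1 0 = 0 := by
    simp only [gmul, rd_apply, dg00, dg01, dg10, dg11]
    linear_combination ((e⁻¹ : (ZMod M)ˣ) * a * s.val 0 0 : ZMod M) * q2 +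
      ((e⁻¹ : (ZMod M)ˣ) * e * (γ' 1 1 : ℤ) : ZMod M) * s10
  have hb : dg a⁻¹ e⁻¹ * (rd M γ' * (dg a e * s)) ∈ Bq M M₀ := by
    refine ⟨h.memK0.2 (Fin.forall_fin_two.2 ⟨Fin.forall_fin_two.2 ⟨?_, ?_⟩,
      Fin.forall_fin_two.2 ⟨?_, ?_⟩⟩), h.ext ?_ (by rw [k10, mul_zero])⟩
    · simp only [gmul, rd_apply, dg00, dg01, dg10, dg11, Matrix.one_apply_eq]
      linear_combination ((a⁻¹ : (ZMod M)ˣ) * a * s.val 0 0 : ZMod M) * q0 +
        ((a⁻¹ : (ZMod M)ˣ) * a : ZMod M) * s00 + (q : ZMod M) * i1 +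
        ((a⁻¹ : (ZMod M)ˣ) * e * s.val 1 0 : ZMod M) * q1
    · simp only [gmul, rd_apply, dg00, dg01, dg10, dg11,
        Matrix.one_apply_ne (show (0 : Fin 2) ≠ 1 by decide)]
      linear_combination ((a⁻¹ : (ZMod M)ˣ) * a * (γ' 0 0 : ℤ) : ZMod M) * s01 +
        ((a⁻¹ : (ZMod M)ˣ) * e * s.val 1 1 : ZMod M) * q1
    · rw [k10, Matrix.one_apply_ne (show (1 : Fin 2) ≠ 0 by decide), mul_zero]
    · simp only [gmul, rd_apply, dg00, dg01, dg10, dg11, Matrix.one_apply_eq]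
      linear_combination ((e⁻¹ : (ZMod M)ˣ) * e * s.val 1 1 : ZMod M) * q3 +
        ((e⁻¹ : (ZMod M)ˣ) * e : ZMod M) * s11 + (q : ZMod M) * i2 +
        ((e⁻¹ : (ZMod M)ˣ) * a * s.val 0 1 : ZMod M) * q2
    · simp only [gmul, rd_apply, dg00, dg01, dg10, dg11]
      linear_combination ((e⁻¹ : (ZMod M)ˣ) * a * (γ' 1 0 : ℤ) : ZMod M) * t00 +
        ((e⁻¹ : (ZMod M)ˣ) * e * s.val 1 0 : ZMod M) * d4
  refine key0 h.M0pos hw e0 rfl ?_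
  rwa [← iv_val hB hb, ← mul_assoc, dg_mul, mul_inv_cancel, mul_inv_cancel, dg_one, one_mul] at hf

theorem trF_eq (hq : 0 < q) (γ : SL(2, ℤ)) (i : ℕ) (f : ℍ → ℂ) : G.trF q γ i f =
    (q : ℂ) ^ i • (f + ∑ j : Fin q, (f ∣[((i + 1 + 1 : ℕ) : ℤ)] γ) ∣[((i + 1 + 1 : ℕ) : ℤ)]
      tl j.1) := by
  rw [G.trF, smul_add, Finset.smul_sum]
  congr 1
  refine Finset.sum_congr rfl fun j _ => ?_
  have e : DD q * L3.alp 0 q γ (some j) =
      (tl j.1 : Matrix (Fin 2) (Fin 2) ℤ) * ((q : ℤ) • (1 : Matrix (Fin 2) (Fin 2) ℤ)) := by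
    rw [Matrix.mul_smul, mul_one]
    ext a b
    fin_cases a <;> fin_cases b <;> simp [L3.alp, tl, Matrix.mul_apply, Fin.sum_univ_two]
  have hp : 0 < ((q : ℤ) • (1 : Matrix (Fin 2) (Fin 2) ℤ)).det := by
    rw [Matrix.det_smul]; simp [hq.ne', sq_pos_iff]
  rw [L3.alp, L3.alp, sz_mul _ _ (SL_pos γ) (detV hq), ← sz_mul _ _ (detV hq) (detU hq _), sz_SL]
  exact (congrArg _ e).trans (by rw [sz_mul _ _ (SL_pos _) hp, sz_scalar hq, sz_SL])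

/-- the trace -/
theorem tr_zero (h : Sp M M₀ q) {s : GM M} (hs : IsS M M₀ s) {γ : SL(2, ℤ)}
    (hγ : G.AL1 (M₀ ^ 2) q γ) {i : ℕ} {w : FT M (AA O)} (hw : w ∈ L O M (i + 1 + 1))
    (hB : w ∈ Iv O (AA O) (Bq M M₀)) (h0 : (1 + Ts O _ M₀ q s) w = 0) {f : ℍ → ℂ}
    {a e : (ZMod M)ˣ} (hf : Rp M M₀ f (w (dg a e))) : G.trF q γ i f = 0 := by
  have h1 : ∀ j : Fin q, Rp M M₀ ((f ∣[((i + 1 + 1 : ℕ) : ℤ)] γ) ∣[((i + 1 + 1 : ℕ) : ℤ)] tl j.1)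
      (w (dg a e * (un ((M₀ : ZMod M) * ((j.1 : ZMod M) * ((-(e * a⁻¹) : (ZMod M)ˣ) : ZMod M))) * s))) := by
    intro j
    refine key0 (γ := tl (M₀ * j.1)) h.M0pos hw ?_ ?_ (rp_s h hs hγ hw hB hf)
    · ext a b
      fin_cases a <;> fin_cases b <;> simp [tl, Matrix.mul_apply, Fin.sum_univ_two]
    · rw [rd_tl, ← mul_assoc, un_dg, mul_assoc, ← mul_assoc (un _), Hk.un_mul]
      push_cast
      rw [show ∀ x y z : ZMod M, x * y * z + x * (y * -z) = 0 from fun x y z => by ring,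
        Hk.un_zero, one_mul]
  have h2 := hf.add (Rp.sum Finset.univ fun j _ => h1 j)
  rw [perm h (fun x => w (dg a e * (un x * s))) (Units.isUnit _)] at h2
  have h3 := congrFun h0 (dg a e)
  rw [LinearMap.add_apply, Module.End.one_apply, Ts_apply, Pi.add_apply, Finset.sum_apply] at h3
  simp only [rt_apply, Pi.zero_apply] at h3
  rw [h3] at h2
  rw [trF_eq h.qpos, h2.fun_eq Rp.zero, smul_zero]

theorem trF_smul (hq : 0 < q) (γ : SL(2, ℤ)) (i : ℕ) (c : ℂ) (f : ℍ → ℂ) :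
    G.trF q γ i (c • f) = c • G.trF q γ i f := by
  simp only [trF_eq hq, ModularForm.SL_smul_slash, ← Finset.smul_sum, ← smul_add]
  exact smul_comm _ _ _

theorem W_B (h : Sp M M₀ q) {S R : Type} [CommRing S] [CommRing R] [Algebra S R] {z : R}
    (hz : z ^ M = 1) {w : FT M R} (hB : w ∈ Iv S R (Bq M M₀)) :
    W1 S R M M₀ q z k w ∈ Iv S R (Bq M M₀) := by
  obtain ⟨-, ⟨a1, a2⟩, -, a3, -⟩ := wf1 S R M M₀ q z h hz w (U_of_B hB)
  refine mem_Iv.2 fun g hg => ?_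
  obtain ⟨u, hu, a, d, ⟨x, ha⟩, ⟨y, hd⟩, rfl⟩ := (grp M M₀ q h).2.2.2.2.2.2.1 g hg
  obtain ⟨-, b1, b2⟩ := a3 d a ⟨y - x, by rw [ha, hd]; ring⟩
  rw [mem_Iv.1 hB _ (dg_mem ⟨y, hd⟩ ⟨x, ha⟩)] at b1 b2
  rw [← rt_rt, W1_apply, map_add, map_nsmul, ← b1, ← b2, map_add, map_nsmul, mem_Iv.1 a1 u hu,
    mem_Iv.1 a2 u hu]

end Vale.Agent.P022D.V.Cl

namespace Vale.Agent.P022D.Nw

open Vale.Agent.P022 Vale.Agent.P022D.V Vale.Agent.P022D.V.Cl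
open Vale.Agent.P022D.Trc (sz sz_mul sz_SL SL_pos)

/-- **CLN** -/
theorem cln (O : Type) [CommRing O] [Co O] : CLN O := by
  rintro M M₀ q _ u i s γ h hs hu hi hγ Q hQ w ⟨hw, hB⟩ h1 h2
  obtain ⟨i, rfl⟩ : ∃ j, i = j + 1 := ⟨i - 1, by omega⟩
  have hl : Lv M M₀ q (M₀ ^ 2 * q) := ⟨h.odd, h.eq, rfl⟩
  have hU := U_of_B hB
  have hz : zA O M ^ M = 1 := av_inj (by
    rw [map_pow, Hk.av_zA h.Mpos, map_one, P027M.M.ze, ← Complex.exp_nat_mul, Int.cast_one,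
      mul_one, mul_div_cancel₀ _ (by exact_mod_cast h.Mpos.ne'), Complex.exp_two_pi_mul_I])
  refine kill hl (i + 1) hu Q hw hU fun a e f hf => hQ i (Finset.mem_singleton_self _) f
    ⟨inv_form hl hw hU hB (dvd_pow_self M₀ two_ne_zero) hf, tr_zero h hs hγ hw hB h1 hf, ?_⟩
  obtain ⟨c, hc⟩ := (grp M M₀ q h).2.1
  obtain ⟨b1, b2, -⟩ := (wf1 O _ M M₀ q (zA O M) h hz w hU).1 s c (dg (c⁻¹ * a) e) hs hc
    ⟨mul_zero _, mul_zero _⟩
  rw [dg_mul, mul_inv_cancel_left, one_mul] at b1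
  have h3 : Rp M M₀ ((q : ℂ) • sz ((i + 1 + 1 : ℕ) : ℤ) f (L3.alp 0 q γ none))
      (W1 O _ M M₀ q (zA O M) (i + 1 + 1) w (dg (c⁻¹ * a) e)) := by
    rw [W1_apply, Pi.add_apply, Pi.smul_apply, b1, b2, add_zero, L3.alp,
      sz_mul _ _ (SL_pos γ) (detV h.qpos), sz_SL, sz_sl, Rp, map_nsmul, Tr.map_Vo,
      ← Nat.cast_smul_eq_nsmul ℂ, Vo_smul, Vo_Vo, mul_comm M₀, ← Vo_Vo, Nat.cast_smul_eq_nsmul]
    exact hs_V h.qpos _ (rp_s h hs hγ hw hB hf)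
  have h4 := tr_zero h hs hγ (wl O M M₀ q _ h w ⟨hw, hU⟩) (W_B h hz hB) h2 h3
  rw [trF_smul h.qpos] at h4
  exact (smul_eq_zero.1 h4).resolve_left (by exact_mod_cast h.qpos.ne')

end Vale.Agent.P022D.Nw
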