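import Vale.Agent.P022D.Nw.Main
import Vale.Agent.P022D.Nw.Cln
import Vale.Agent.P022D.Gt.Clg

/-!
# P022D, new vectors: closed statements
-/

set_option linter.all false

namespace Vale.Agent.P022D.Nw

open Vale.Agent.P022D.V

variable (O : Type) [CommRing O] [Co O]

theorem newdC : NEWD O := newd O (Gt.clg O) (cln O)

theorem newrC : NEWR O := newr O (Gt.clg O) (cln O)

end Vale.Agent.P022D.Nw
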