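import Vale.Agent.P022D.Nw.Alg
import Vale.Agent.P022D.Nw.Fml
import Vale.Agent.P022D.V.Clad
import Vale.Agent.P022D.Gt.Defs
import Vale.Agent.P022D.G.All
import Vale.Agent.P022D.G.NewN

/-!
# P022D, new vectors are killed by the square of `q t(φ)² - (q + 1)² d(φ)`
-/

set_option linter.all false

open Matrix
open scoped MatrixGroups

noncomputable section

namespace Vale.Agent.P022D.Nw

open Vale.Agent.P022 Vale.Agent.P022D.V Vale.Agent.P022D.G Vale.Agent.P022.H853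

theorem lift_rel' {X A B O O' : Type} [CommRing O] [CommRing O'] [AddCommGroup A] [Module O A]
    [AddCommGroup B] [Module O' B] (a : FreeAlgebra ℤ X →+* Module.End O A)
    (b : FreeAlgebra ℤ X →+* Module.End O' B) (E : AddSubgroup (A × B))
    (h : ∀ s x y, (x, y) ∈ E → (a (FreeAlgebra.ι ℤ s) x, b (FreeAlgebra.ι ℤ s) y) ∈ E)
    (Q : FreeAlgebra ℤ X) : ∀ x y, (x, y) ∈ E → (a Q x, b Q y) ∈ E :=
  lift_rel a.toIntAlgHom b.toIntAlgHom E h Q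

variable {O : Type} [CommRing O] [Co O] {M M₀ q : ℕ} {R : Type} [CommRing R] [Algebra O R]

variable (O) in
/-- the lattice at the Iwahori level -/
def PL (M M₀ j : ℕ) : Submodule O (FT M (AA O)) := L2 O M (j + 1) ⊓ Iv O _ (Bq M M₀)

/-- the operators on the lattice -/
def Gd (M M₀ j : ℕ) (φ : AA O →ₗ[O] R) : Subalgebra O (Module.End O (FT M (AA O))) where
  carrier := {A | (∀ w ∈ PL O M M₀ j, A w ∈ PL O M M₀ j) ∧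
    (∀ w, ml O M φ w = 0 → ml O M φ (A w) = 0) ∧
    ∀ b, ∀ w ∈ PL O M M₀ j, rt O _ (dg 1 b) (A w) = A (rt O _ (dg 1 b) w)}
  mul_mem' := fun {A B} hA hB => ⟨fun w hw => hA.1 _ (hB.1 w hw), fun w hw => hA.2.1 _ (hB.2.1 w hw),
    fun b w hw => by
      rw [Module.End.mul_apply, hA.2.2 b _ (hB.1 w hw), hB.2.2 b w hw, Module.End.mul_apply]⟩
  add_mem' := fun {A B} hA hB => ⟨fun w hw => add_mem (hA.1 w hw) (hB.1 w hw), fun w hw => by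
      rw [LinearMap.add_apply, map_add, hA.2.1 w hw, hB.2.1 w hw, add_zero],
    fun b w hw => by
      rw [LinearMap.add_apply, map_add, hA.2.2 b w hw, hB.2.2 b w hw, LinearMap.add_apply]⟩
  algebraMap_mem' c := ⟨fun w hw => Submodule.smul_mem _ c hw, fun w hw => by
      rw [Module.algebraMap_end_apply, map_smul, hw, smul_zero],
    fun b w hw => by rw [Module.algebraMap_end_apply, Module.algebraMap_end_apply, map_smul]⟩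

/-- restriction to the lattice -/
def res (M M₀ j : ℕ) (φ : AA O →ₗ[O] R) : Gd M M₀ j φ →+* Module.End O (PL O M M₀ j) where
  toFun A := A.1.restrict A.2.1
  map_one' := rfl
  map_mul' _ _ := rfl
  map_zero' := rfl
  map_add' _ _ := rfl

theorem res_coe {j : ℕ} {φ : AA O →ₗ[O] R} (A : Gd M M₀ j φ) (x : PL O M M₀ j) :
    (res M M₀ j φ A x : FT M (AA O)) = A.1 x := rfl

theorem pw_L (hM : 0 < M) (j p : ℕ) {w : FT M (AA O)} (hw : w ∈ L O M (j + 1)) :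
    pw O _ M j p w = w := by
  rw [pw_apply, Tr.ep_L hM hw, sub_self, smul_zero, add_zero]

theorem pw_L' (hM : 0 < M) (j : ℕ) {p : ℕ} (hp : Odd p) {w : FT M (AA O)}
    (hw : w ∈ L O M (j + 1 + 1)) : pw O _ M j p w = p • w := by
  obtain ⟨c, rfl⟩ := hp
  rw [pw_apply, Tr.ep_L' hM hw, show (2 * c + 1 - 1) / 2 = c by omega]
  module

theorem T2_L2 (hM : Odd M) {j p : ℕ} (hp : p.Prime) (ho : Odd p) {u : (ZMod M)ˣ}
    (hu : (u : ZMod M) = p) {w : FT M (AA O)} (hw : w ∈ L2 O M (j + 1)) :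
    T2 O _ j p u w ∈ L2 O M (j + 1) := by
  have e : ∀ j, ∀ w ∈ L O M (j + 1), T2 O _ j p u w ∈ L O M (j + 1) := fun j w hw => by
    rw [T2_apply, pw_L hM.pos j p hw]
    exact hk O M j p u hM hp hu w hw
  refine ⟨Submodule.mem_comap.2 ?_, Submodule.mem_comap.2 ?_⟩
  · rw [(Cd.nt_add _).T2 (Cd.pw_add j p)]
    exact e _ _ hw.1
  · rw [(Cd.nt_sub _).T2 (Cd.pw_sub j ho)]
    exact e _ _ hw.2

section

variable (h : Sp M M₀ q) (j : ℕ) (φ : AA O →ₗ[O] R)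
include h

theorem gd_dg (a d : (ZMod M)ˣ) : (rt O (AA O) (dg a d)).toLinearMap ∈ Gd M M₀ j φ :=
  ⟨fun w hw => ⟨Tr.L2_rt hw.1 _, rt_B h rfl hw.2⟩, fun w hw => by
    rw [AlgHom.toLinearMap_apply, ml_rt, hw, map_zero], fun b w hw => by
    simp only [AlgHom.toLinearMap_apply, rt_rt]
    rw [dg_comm]⟩

theorem gd_S2 (p : ℕ) (u : (ZMod M)ˣ) : S2 O (AA O) j p u ∈ Gd M M₀ j φ :=
  mul_mem (nsmul_mem (gd_dg h j φ _ _) _) (add_mem (one_mem _)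
    (nsmul_mem (sub_mem (one_mem _) (zsmul_mem (gd_dg h j φ _ _) _)) _))

theorem gd_T2 {p : ℕ} (hp : p.Prime) (ho : Odd p) {u : (ZMod M)ˣ} (hu : (u : ZMod M) = p) :
    T2 O (AA O) j p u ∈ Gd M M₀ j φ :=
  ⟨fun w hw => ⟨T2_L2 h.odd hp ho hu hw.1, Iv_T2 _ _ _ hw.2⟩, fun w hw => by
    rw [ml_T2, hw, map_zero], fun b w hw => rt_T2 _ _ _ _ _⟩

theorem gd_Tr {s : GM M} (hs : IsS M M₀ s) : 1 + Ts O (AA O) M₀ q s ∈ Gd M M₀ j φ :=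
  add_mem (one_mem _) ⟨fun w hw => ⟨by
    rw [Ts_apply]
    exact sum_mem fun x _ => Tr.L2_rt hw.1 _, Ts_B h hs hw.2⟩, fun w hw => by
    rw [ml_Ts, hw, map_zero], fun b w hw =>
    ((cm_dg h (root O M h.odd).2.1.pow hs 1 b w hw.2).2.2.2.1).symm⟩

theorem gd_W {s : GM M} (hs : IsS M M₀ s) {z : R} (hz : ∀ x, φ (zA O M * x) = z * φ x) :
    W2 O (AA O) M M₀ q (zA O M) j ∈ Gd M M₀ j φ :=
  have z1 := (root O M h.odd).2.1.pow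
  ⟨fun w hw => ⟨Ih.W2_L2 (wl O) wf1 h z1 hw.1 (B_U hw.2), W2_B h z1 hs j hw.2⟩, fun w hw => by
    rw [ml_W2 φ M₀ q hz, hw, map_zero], fun b w hw => (Cm.W2 (cm_dg h z1 hs 1 b) j hw.2).symm⟩

/-- the torus -/
def rD : (ZMod M)ˣ →* Gd M M₀ j φ where
  toFun b := ⟨_, gd_dg h j φ 1 b⟩
  map_one' := Subtype.ext (LinearMap.ext fun w => by
    show rt O _ (dg 1 1) w = w
    rw [V.dg_one, rt_one])
  map_mul' a b := Subtype.ext (LinearMap.ext fun w => by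
    show rt O _ (dg 1 (a * b)) w = rt O _ (dg 1 a) (rt O _ (dg 1 b) w)
    rw [rt_rt, dg_mul, one_mul])

end

/-- the data at `q` -/
structure Su (M M₀ q : ℕ) (s : GM M) (c : (ZMod M)ˣ) (qi : O) (φ : AA O →ₗ[O] R) (z : R) :
    Prop where
  h : Sp M M₀ q
  hs : IsS M M₀ s
  hc : IsC M M₀ q c
  hq : qi * q = 1
  hz : ∀ x, φ (zA O M * x) = z * φ x

theorem cop (h : Sp M M₀ q) (ℓ : PA (M₀ ^ 2)) (a : ℓ.1 ≠ q) : Nat.Coprime ℓ.1 M := by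
  rw [ℓ.2.1.coprime_iff_not_dvd, h.eq, ℓ.2.1.dvd_mul]
  rintro (b | b)
  · exact ℓ.2.2 ((b.trans (dvd_pow_self _ two_ne_zero)).mul_left 2)
  · exact a ((Nat.prime_dvd_prime_iff_eq ℓ.2.1 h.prime).1 b)

/-- the classes of the primes -/
def Uc (M₀ q : ℕ) (c : (ZMod M)ˣ) (ℓ : PA (M₀ ^ 2)) : (ZMod M)ˣ :=
  if ℓ.1 = q then c else Gt.cl M ℓ.1

theorem hU (h : Sp M M₀ q) (c : (ZMod M)ˣ) (ℓ : PA (M₀ ^ 2)) (a : ℓ.1 ≠ q) :
    (Uc M₀ q c ℓ : ZMod M) = ℓ.1 := by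
  rw [Uc, if_neg a, Gt.cl_coe (cop h ℓ a)]

/-- the classes at the lower level -/
def U0 (h : Sp M M₀ q) (c : (ZMod M)ˣ) (ℓ : PA (M₀ ^ 2)) : (ZMod M₀)ˣ :=
  Units.map (ZMod.castHom h.dvd (ZMod M₀) : ZMod M →* ZMod M₀) (Uc M₀ q c ℓ)

/-- forget the condition at `q` -/
def jm (M₀ q : ℕ) (ℓ : PA (M₀ ^ 2 * q)) : PA (M₀ ^ 2) :=
  ⟨ℓ.1, ℓ.2.1, fun a => ℓ.2.2 ((a.mul_right q).trans (mul_assoc _ _ _).dvd)⟩

theorem jq (ℓ : PA (M₀ ^ 2 * q)) : (jm M₀ q ℓ).1 ≠ q := fun a =>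
  ℓ.2.2 (((show ℓ.1 = q from a).dvd.mul_left _).mul_left 2)

/-- inclusion of the words -/
def inc (M₀ q : ℕ) : Wd (M₀ ^ 2 * q) →+* Wd (M₀ ^ 2) :=
  (FreeAlgebra.lift ℤ fun s => FreeAlgebra.ι ℤ (Sum.map (jm M₀ q) (jm M₀ q) s)).toRingHom

theorem einc (s) : inc M₀ q (FreeAlgebra.ι ℤ s) = FreeAlgebra.ι ℤ (Sum.map (jm M₀ q) (jm M₀ q) s) :=
  FreeAlgebra.lift_ι_apply _ _

namespace Su

variable {s : GM M} {c : (ZMod M)ˣ} {qi : O} {φ : AA O →ₗ[O] R} {z : R}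
  (H : Su M M₀ q s c qi φ z) (j : ℕ)

include H in
theorem z1 : zA O M ^ M = 1 := (root O M H.h.odd).2.1.pow

include H in
theorem qq {X : Type} [AddCommGroup X] [Module O X] (w : X) : qi • q • w = w := by
  rw [← Nat.cast_smul_eq_nsmul O, smul_smul, H.hq, one_smul]

theorem hU0 (ℓ : PA (M₀ ^ 2)) : (U0 H.h c ℓ : ZMod M₀) = ℓ.1 := by
  by_cases a : ℓ.1 = q
  · rw [U0, Uc, if_pos a, um_c H.h H.hc, a]
  · exact um_coe H.h.dvd (hU H.h c ℓ a)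

/-- the trace -/
def T : Gd M M₀ j φ := ⟨_, gd_Tr H.h j φ H.hs⟩

/-- the Atkin-Lehner operator -/
def W : Gd M M₀ j φ := ⟨_, gd_W H.h j φ H.hs H.hz⟩

/-- the operator `q S_q` -/
def κ : Gd M M₀ j φ := ⟨_, gd_S2 H.h j φ q c⟩

/-- the operator which lifts `q T_q` -/
def Z : Gd M M₀ j φ := H.W j * H.T j + H.T j * H.W j - (q + 1 : ℕ) • H.W j

theorem rZ : res M M₀ j φ (H.T j) * res M M₀ j φ (H.Z j) =
      res M M₀ j φ (H.T j) * res M M₀ j φ (H.W j) * res M M₀ j φ (H.T j) ∧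
    res M M₀ j φ (H.T j) * res M M₀ j φ (H.W j) * res M M₀ j φ (H.Z j) =
      res M M₀ j φ (H.T j) * res M M₀ j φ (H.W j) * (res M M₀ j φ (H.T j) * res M M₀ j φ (H.W j)) ∧
    res M M₀ j φ (H.Z j) * res M M₀ j φ (H.Z j) - (q + 1) ^ 2 • q • res M M₀ j φ (H.κ j) =
      (res M M₀ j φ (H.Z j) * res M M₀ j φ (H.W j) - (q + 1 : ℕ) • q • res M M₀ j φ (H.κ j)) *
        res M M₀ j φ (H.T j) + (res M M₀ j φ (H.Z j) - (q + 1 : ℕ) • res M M₀ j φ (H.W j)) *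
        (res M M₀ j φ (H.T j) * res M M₀ j φ (H.W j)) := by
  haveI : NeZero M := ⟨H.h.Mpos.ne'⟩
  refine ring_Z (res M M₀ j φ (H.W j)) (res M M₀ j φ (H.T j)) (q • res M M₀ j φ (H.κ j)) q
    (LinearMap.ext fun w => Subtype.ext
      (W2_W2 H.h (root O M H.h.odd).2.1 H.hs H.hc j w.2.2 (Tr.TC_L2 w.2.1)))
    (LinearMap.ext fun w => Subtype.ext (Tr_of_K H.h H.hs (Tr_K H.h H.hs w.2.2))) ?_ _ rfl
  rw [smul_mul_assoc, mul_smul_comm]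
  exact congrArg _ (LinearMap.ext fun w => Subtype.ext
    (Cm.tr (cm_S2 H.h H.z1 H.hs j q c) w.2.2).symm)

/-- the letters of the lower level -/
def a0 : Gen (M₀ ^ 2) → Gd M M₀ j φ := Sum.elim
  (fun ℓ => (if a : ℓ.1 = q then qi • H.Z j else
    ⟨_, gd_T2 H.h j φ ℓ.2.1 (Cd.pa_odd ℓ) (hU H.h c ℓ a)⟩) * rD H.h j φ (Uc M₀ q c ℓ)⁻¹)
  (fun ℓ => ⟨_, gd_S2 H.h j φ ℓ.1 (Uc M₀ q c ℓ)⟩ * rD H.h j φ ((Uc M₀ q c ℓ)⁻¹ * (Uc M₀ q c ℓ)⁻¹))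

/-- the words of the lower level -/
def ρ' : Wd (M₀ ^ 2) →+* Gd M M₀ j φ := (FreeAlgebra.lift ℤ (H.a0 j)).toRingHom

theorem eρ' (s) : H.ρ' j (FreeAlgebra.ι ℤ s) = H.a0 j s := FreeAlgebra.lift_ι_apply _ _

/-- the words of the lower level on the lattice -/
def ρ0 : Wd (M₀ ^ 2) →+* Module.End O (PL O M M₀ j) := (res M M₀ j φ).comp (H.ρ' j)

/-- the words on the lattice -/
def ρ : Wd (M₀ ^ 2 * q) →+* Module.End O (PL O M M₀ j) := (H.ρ0 j).comp (inc M₀ q)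

theorem lT (ℓ) (w : PL O M M₀ j) : (H.ρ j (wT ℓ) w : FT M (AA O)) =
    T2 O _ j ℓ.1 (Uc M₀ q c (jm M₀ q ℓ)) (rt O _ (dg 1 (Uc M₀ q c (jm M₀ q ℓ))⁻¹) w) := by
  show (H.ρ' j (inc M₀ q (FreeAlgebra.ι ℤ (Sum.inl ℓ)))).1 w = _
  rw [einc, eρ', a0, Sum.map_inl, Sum.elim_inl, dif_neg (jq ℓ)]
  rfl

theorem lS (ℓ) (w : PL O M M₀ j) : (H.ρ j (wS ℓ) w : FT M (AA O)) =
    S2 O _ j ℓ.1 (Uc M₀ q c (jm M₀ q ℓ))
      (rt O _ (dg 1 ((Uc M₀ q c (jm M₀ q ℓ))⁻¹ * (Uc M₀ q c (jm M₀ q ℓ))⁻¹)) w) := by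
  show (H.ρ' j (inc M₀ q (FreeAlgebra.ι ℤ (Sum.inr ℓ)))).1 w = _
  rw [einc, eρ']
  rfl

theorem eρ (Q) (w : PL O M M₀ j) : (H.ρ j Q w : FT M (AA O)) =
    wd O _ j (fun ℓ => Uc M₀ q c (jm M₀ q ℓ)) (fun ℓ => Uc M₀ q c (jm M₀ q ℓ)) Q w := by
  refine lift_rel' (H.ρ j) (wd O (AA O) j _ _).toRingHom
    (PL O M M₀ j).subtype.toAddMonoidHom.graph ?_ Q w w rfl
  rintro (ℓ | ℓ) x y (a : x.1 = y) <;> subst a
  · show (H.ρ j (wT ℓ) x : FT M (AA O)) = wd O _ j _ _ (FreeAlgebra.ι ℤ (Sum.inl ℓ)) x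
    rw [lT, wd, FreeAlgebra.lift_ι_apply]
    rfl
  · show (H.ρ j (wS ℓ) x : FT M (AA O)) = wd O _ j _ _ (FreeAlgebra.ι ℤ (Sum.inr ℓ)) x
    rw [lS, wd, FreeAlgebra.lift_ι_apply]
    rfl

theorem key (B : Gd M M₀ j φ)
    (b1 : ∀ A ∈ Cm O _ M M₀ q (zA O M) s, ∀ w ∈ PL O M M₀ j, B.1 (A w) = A (B.1 w))
    (b2 : res M M₀ j φ (H.T j) * res M M₀ j φ B * res M M₀ j φ (H.Z j) =
      res M M₀ j φ (H.T j) * res M M₀ j φ (H.W j) * (res M M₀ j φ (H.T j) * res M M₀ j φ B))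
    (Q) (w : PL O M M₀ j) (y) : (H.T j).1 (B.1 w) = ifl O _ H.h.dvd y →
      (H.T j).1 (B.1 (H.ρ0 j Q w)) = ifl O _ H.h.dvd (wd O _ j (U0 H.h c) (U0 H.h c) Q y) := by
  have h := H.h
  haveI : NeZero M := ⟨h.Mpos.ne'⟩
  have st : ∀ A ∈ Cm O _ M M₀ q (zA O M) s, ∀ w ∈ PL O M M₀ j,
      (H.T j).1 (B.1 (A w)) = A ((H.T j).1 (B.1 w)) := fun A hA w hw => by
    rw [b1 A hA w hw]
    exact Cm.tr hA (B.2.1 w hw).2
  refine lift_rel' (H.ρ0 j) (wd O (AA O) j (U0 H.h c) (U0 H.h c)).toRingHom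
    (AddMonoidHom.eqLocus
      (((H.T j).1 ∘ₗ B.1 ∘ₗ (PL O M M₀ j).subtype).toAddMonoidHom.comp (AddMonoidHom.fst _ _))
      ((ifl O _ h.dvd).toAddMonoidHom.comp (AddMonoidHom.snd _ _))) ?_ Q w y
  rintro (ℓ | ℓ) w y (a : (H.T j).1 (B.1 w) = ifl O _ h.dvd y)
  · show (H.T j).1 (B.1 ((H.ρ' j (FreeAlgebra.ι ℤ (Sum.inl ℓ))).1 w)) =
      ifl O _ h.dvd (wd O _ j _ _ (FreeAlgebra.ι ℤ (Sum.inl ℓ)) y)
    rw [eρ', wd, FreeAlgebra.lift_ι_apply, a0, Sum.elim_inl, Sum.elim_inl]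
    have a' := st _ (cm_dg h H.z1 H.hs 1 (Uc M₀ q c ℓ)⁻¹) w w.2
    rw [a, AlgHom.toLinearMap_apply, AlgHom.toLinearMap_apply, ifl_dg, map_one, map_inv] at a'
    have m : rt O _ (dg 1 (Uc M₀ q c ℓ)⁻¹) w.1 ∈ _ := (gd_dg h j φ 1 (Uc M₀ q c ℓ)⁻¹).1 w w.2
    by_cases b : ℓ.1 = q
    · rw [dif_pos b]
      have k : (H.T j).1 (B.1 ((H.Z j).1 (rt O _ (dg 1 (Uc M₀ q c ℓ)⁻¹) w.1))) = (H.T j).1
          ((H.W j).1 ((H.T j).1 (B.1 (rt O _ (dg 1 (Uc M₀ q c ℓ)⁻¹) w.1)))) :=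
        congrArg Subtype.val (LinearMap.congr_fun b2 ⟨_, m⟩)
      have tc := Tr.TC_L2 ((H.T j).2.1 _ (B.2.1 _ m)).1
      rw [a'] at k tc
      change (H.T j).1 (B.1 (qi • (H.Z j).1 (rt O _ (dg 1 (Uc M₀ q c ℓ)⁻¹) w.1))) = _
      rw [map_smul, map_smul, k]
      refine (congrArg (qi • ·) (Tr_W2 h (root O M h.odd).2.1 H.hs
        ((H.hU0 ℓ).trans (congrArg _ b)) j tc)).trans ((H.qq _).trans ?_)
      subst b
      rfl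
    · rw [dif_neg b]
      refine (st _ (cm_T2 h H.z1 H.hs j (hU h c ℓ b)) _ m).trans ?_
      rw [a', ← ifl_T2 h.dvd j (hU h c ℓ b) (H.hU0 ℓ)]
      rfl
  · show (H.T j).1 (B.1 ((H.ρ' j (FreeAlgebra.ι ℤ (Sum.inr ℓ))).1 w)) =
      ifl O _ h.dvd (wd O _ j _ _ (FreeAlgebra.ι ℤ (Sum.inr ℓ)) y)
    rw [eρ', wd, FreeAlgebra.lift_ι_apply]
    refine (st _ (mul_mem (cm_S2 h H.z1 H.hs j ℓ.1 (Uc M₀ q c ℓ)) (cm_dg h H.z1 H.hs 1 _))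
      w w.2).trans ?_
    simp only [a, Sum.elim_inr, Module.End.mul_apply, AlgHom.toLinearMap_apply, S2_apply,
      Sf_apply, ifl_dg, ← ifl_pw, map_nsmul, map_one, map_mul, map_inv, U0]

/-- the new lattice -/
def K : Submodule O (PL O M M₀ j) :=
  LinearMap.ker (res M M₀ j φ (H.T j)) ⊓ LinearMap.ker (res M M₀ j φ (H.T j * H.W j))

theorem mK (w) : w ∈ H.K j ↔ (H.T j).1 w = 0 ∧ (H.T j).1 ((H.W j).1 w) = 0 :=
  and_congr Subtype.ext_iff Subtype.ext_iff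

theorem k12 (Q) (w : PL O M M₀ j) {y y'} (a : (H.T j).1 w = ifl O _ H.h.dvd y)
    (a' : (H.T j).1 ((H.W j).1 w) = ifl O _ H.h.dvd y')
    (b : wd O _ j (U0 H.h c) (U0 H.h c) Q y = 0) (b' : wd O _ j (U0 H.h c) (U0 H.h c) Q y' = 0) :
    H.ρ0 j Q w ∈ H.K j :=
  (H.mK j _).2 ⟨(H.key j 1 (fun _ _ _ _ => rfl)
    (by simpa only [map_one, mul_one] using (H.rZ j).1) Q w y a).trans (by rw [b, map_zero]),
    (H.key j (H.W j) (fun A hA w hw => Cm.W2 hA j hw.2) (H.rZ j).2.1 Q w y' a').trans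
      (by rw [b', map_zero])⟩

theorem cr (b) (A : Gd M M₀ j φ) : Commute (res M M₀ j φ (rD H.h j φ b)) (res M M₀ j φ A) :=
  LinearMap.ext fun w => Subtype.ext (A.2.2.2 b w w.2)

theorem kil0 [NeZero (M₀ ^ 2)] (hG : Gt.CLG O) (Q)
    (hQ : ∀ k ∈ ({j, j + 1} : Finset ℕ), sg (M₀ ^ 2) k Q = 0) (w) : H.ρ0 j Q w ∈ H.K j := by
  haveI : NeZero M := ⟨H.h.Mpos.ne'⟩
  have o0 := Ih.odd_M0 H.h
  have low : ∀ w ∈ PL O M M₀ j, ∃ y, (H.T j).1 w = ifl O _ H.h.dvd y ∧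
      wd O _ j (U0 H.h c) (U0 H.h c) Q y = 0 := fun w hw => by
    obtain ⟨y, y1, y2⟩ := Ds.L2_ex H.h.dvd ((H.T j).2.1 w hw).1 (Tr_K H.h H.hs hw.2)
    have iv : ∀ y : FT M₀ (AA O), y ∈ Iv O _ (Uq M₀ M₀) := fun y => mem_Iv.2 (by
      rintro _ ⟨x, rfl⟩
      simp only [ZMod.natCast_self, zero_mul, Ih.un_zero, rt_one])
    exact ⟨y, y2.symm, Cd.wd_L2 _ _ Q
      (hG M₀ M₀ _ _ j o0 dvd_rfl (sq _) H.hU0 Q (hQ _ (by simp)) _ ⟨y1.1, iv _⟩)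
      (hG M₀ M₀ _ _ (j + 1) o0 dvd_rfl (sq _) H.hU0 Q (hQ _ (by simp)) _ ⟨y1.2, iv _⟩)⟩
  obtain ⟨y, y1, y2⟩ := low w w.2
  obtain ⟨y', y3, y4⟩ := low _ ((H.W j).2.1 w w.2)
  exact H.k12 j Q w y1 y3 y2 y4

theorem kil [NeZero (M₀ ^ 2 * q)] (hG : Gt.CLG O) (Q)
    (hQ : ∀ k ∈ ({j, j + 1} : Finset ℕ), sg (M₀ ^ 2 * q) k Q = 0) (w) :
    (H.ρ j Q w : FT M (AA O)) = 0 := by
  have h := H.h
  have e' : M₀ ^ 2 * q = M₀ * M := by rw [h.eq]; ring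
  have hu := fun ℓ => hU h c _ (jq (q := q) ℓ)
  rw [eρ]
  exact Cd.wd_L2 _ _ Q (hG M M₀ _ _ j h.odd h.dvd e' hu Q (hQ _ (by simp)) _
      ⟨w.2.1.1, B_U ((Cd.nt_add _).eg w.2.2)⟩)
    (hG M M₀ _ _ (j + 1) h.odd h.dvd e' hu Q (hQ _ (by simp)) _
      ⟨w.2.1.2, B_U ((Cd.nt_sub _).eg w.2.2)⟩)

theorem kiln [NeZero (M₀ ^ 2 * q)] (hN : CLN O) (hj : 1 ≤ j) {γ : SL(2, ℤ)}
    (hγ : AL1 (M₀ ^ 2) q γ) (Q) (hQ : KilN (M₀ ^ 2) q γ {j, j + 1} Q) (w) (hw : w ∈ H.K j) :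
    (H.ρ j Q w : FT M (AA O)) = 0 := by
  have h := H.h
  have hu := fun ℓ => hU h c _ (jq (q := q) ℓ)
  rw [mK] at hw
  have c1 := add_mem (one_mem _) (cm_ep (S := O) h H.z1 H.hs (j + 1))
  have c2 := sub_mem (one_mem _) (cm_ep (S := O) h H.z1 H.hs (j + 1))
  have nw : ∀ A ∈ Cm O _ M M₀ q (zA O M) s, (1 + Ts O _ M₀ q s) (A w) = 0 ∧
      (1 + Ts O _ M₀ q s) (W2 O _ M M₀ q (zA O M) j (A w)) = 0 := fun A hA => by
    rw [Cm.W2 hA j w.2.2, Cm.tr hA w.2.2, Cm.tr hA (W2_B h H.z1 H.hs j w.2.2)]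
    exact ⟨(congrArg A hw.1).trans (map_zero _), (congrArg A hw.2).trans (map_zero _)⟩
  rw [eρ]
  refine Cd.wd_L2 _ _ Q (hN M M₀ q _ j s γ h H.hs hu hj hγ Q
      (fun k a => hQ k (Finset.mem_insert.2 (.inl (Finset.mem_singleton.1 a)))) _
      ⟨w.2.1.1, (c1 w w.2.2).1⟩ (nw _ c1).1 ?_)
    (hN M M₀ q _ (j + 1) s γ h H.hs hu (by omega) hγ Q
      (fun k a => hQ k (Finset.mem_insert_of_mem a)) _
      ⟨w.2.1.2, (c2 w w.2.2).1⟩ (nw _ c2).1 ?_)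
  · rw [← (nw _ c1).2, W2_apply, pw_L h.Mpos j q w.2.1.1, W1_apply]
  · rw [← (nw _ c2).2, W2_apply, pw_L' h.Mpos j h.qodd w.2.1.2, map_nsmul, smul_smul, ← pow_succ,
      W1_apply]

theorem dz (lq : PA (M₀ ^ 2)) (hl : lq.1 = q) {w : PL O M M₀ j}
    (t1 : ml O M φ ((H.T j).1 w) = 0) (t2 : ml O M φ ((H.T j).1 ((H.W j).1 w)) = 0) :
    ml O M φ ((q • (H.ρ0 j (wT lq) * H.ρ0 j (wT lq)) - (q + 1) ^ 2 • H.ρ0 j (wS lq)) w) = 0 := by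
  let Φ : PL O M M₀ j →ₗ[O] FT M R := ml O M φ ∘ₗ (PL O M M₀ j).subtype
  have gK : ∀ (A : Gd M M₀ j φ), ∀ w ∈ LinearMap.ker Φ, res M M₀ j φ A w ∈ LinearMap.ker Φ :=
    fun A w hw => A.2.2.1 _ hw
  have t3 : (res M M₀ j φ (H.Z j) * res M M₀ j φ (H.Z j) -
      (q + 1) ^ 2 • q • res M M₀ j φ (H.κ j)) w ∈ LinearMap.ker Φ := by
    rw [(H.rZ j).2.2]
    exact add_mem (gK (H.Z j * H.W j - (q + 1 : ℕ) • q • H.κ j) (res M M₀ j φ (H.T j) w) t1)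
      (gK (H.Z j - (q + 1 : ℕ) • H.W j) (res M M₀ j φ (H.T j) (res M M₀ j φ (H.W j) w)) t2)
  have eT : H.ρ0 j (wT lq) = qi • (res M M₀ j φ (rD H.h j φ c⁻¹) * res M M₀ j φ (H.Z j)) := by
    rw [(H.cr j _ _).eq]
    show res M M₀ j φ (H.ρ' j (FreeAlgebra.ι ℤ (Sum.inl _))) = _
    rw [eρ', a0, Sum.elim_inl, dif_pos hl, Uc, if_pos hl]
    rfl
  have eS : H.ρ0 j (wS lq) = res M M₀ j φ (rD H.h j φ c⁻¹) *
      (res M M₀ j φ (rD H.h j φ c⁻¹) * res M M₀ j φ (H.κ j)) := by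
    rw [← mul_assoc, ← map_mul, ← map_mul (rD H.h j φ), (H.cr j _ _).eq]
    show res M M₀ j φ (H.ρ' j (FreeAlgebra.ι ℤ (Sum.inr _))) = _
    rw [eρ', a0, Sum.elim_inr, map_mul]
    subst hl
    simp only [Uc, if_pos]
    rfl
  have t4 := Submodule.smul_mem _ qi (gK (rD H.h j φ c⁻¹) _ (gK (rD H.h j φ c⁻¹) _ t3))
  refine Eq.trans ?_ t4
  show Φ ((q • (H.ρ0 j (wT lq) * H.ρ0 j (wT lq)) - (q + 1) ^ 2 • H.ρ0 j (wS lq)) w) = _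
  refine congrArg Φ ?_
  rw [eT, eS, smul_mul_smul_comm, mul_assoc, ← mul_assoc (res M M₀ j φ (H.Z j)), ← (H.cr j _ _).eq,
    mul_assoc, mul_smul, smul_comm q]
  simp only [LinearMap.sub_apply, LinearMap.smul_apply, Module.End.mul_apply, map_sub, map_nsmul,
    smul_sub, smul_comm qi ((q + 1) ^ 2), H.qq]

end Su

theorem newG (hG : Gt.CLG O) (hN : CLN O) (h : Sp M M₀ q) {s : GM M} (hs : IsS M M₀ s)
    (φ : AA O →ₗ[O] R) {z : R} (hz : ∀ x, φ (zA O M * x) = z * φ x) {n : ℕ}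
    (hn : ∀ x, (2 : O) ^ (n + 1) • φ x = 0) {i j : ℕ} (hj : 1 ≤ j) (hij : j ≡ i [MOD 2 ^ (n + 1)])
    {O' Y : Type} [CommRing O'] [AddCommGroup Y] [Module O' Y] {t d : GQ → Module.End O' Y}
    {ι : Y →+ FT M R} (gv : Gv O t d R M i ι) {ψ : GQ} (hψ : IsFrob q ψ) {v : Y}
    {x : FT M (AA O)} (hx : x ∈ PL O M M₀ j) (e : ι v = ml O M φ x)
    (n1 : (1 + Ts O _ M₀ q s) (ι v) = 0) (n2 : (1 + Ts O _ M₀ q s) (W2 O _ M M₀ q z i (ι v)) = 0) :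
    Dn t d q ψ (Dn t d q ψ v) = 0 := by
  haveI : NeZero M := ⟨h.Mpos.ne'⟩
  haveI : NeZero (M₀ ^ 2) := ⟨pow_ne_zero _ h.M0pos.ne'⟩
  haveI : NeZero (M₀ ^ 2 * q) := ⟨mul_ne_zero (NeZero.ne _) h.qpos.ne'⟩
  obtain ⟨-, -, -, uM, -⟩ := root O M h.odd
  have qM : ¬ q ∣ M₀ ^ 2 := fun a =>
    (h.prime.coprime_iff_not_dvd.1 h.cop.symm) (h.prime.dvd_of_dvd_pow a)
  obtain ⟨γ, g1, g2⟩ := P027M.J.exists_AL (M := M₀ ^ 2) (q := q)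
    (Nat.isCoprime_iff_coprime.2 (h.prime.coprime_iff_not_dvd.2 qM).symm)
  have hγ : AL1 (M₀ ^ 2) q γ := ⟨g1.c, g2, g1.d⟩
  obtain ⟨c, hc⟩ := (grp M M₀ q h).2.1
  obtain ⟨qi, hqi⟩ : ∃ qi : O, qi * q = 1 := by
    rw [h.eq, Nat.cast_mul] at uM
    exact (isUnit_of_mul_isUnit_right uM).exists_left_inv
  have H : Su M M₀ q s c qi φ z := ⟨h, hs, hc, hqi, hz⟩
  let Φ : PL O M M₀ j →ₗ[O] FT M R := ml O M φ ∘ₗ (PL O M M₀ j).subtype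
  have tor : ∀ w, (2 : O) ^ (n + 1) • ml O M φ w = 0 := fun w => by
    ext g m
    rw [Pi.smul_apply, PowerSeries.coeff_smul, ml_coeff, hn]
    rfl
  have hp : ∀ p, Odd p → ∀ m w, ml O M φ ((p ^ (j + m) : ℕ) • pw O _ M j p w) =
      (p ^ (i + m) : ℕ) • pw O _ M i p (ml O M φ w) := fun p ho m w => by
    rw [map_nsmul, Cd.smul_cg (tor _) (Cd.pow_cg ho (hij.add_right m)), ml_pw, pw, pw,
      Tr.ep_cong (hij.add_right 1)]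
  obtain ⟨S, fr, p₀, ψ₀, pp, pS, pM, pψ, inj⟩ := gv.fr
  have gK : ∀ (A : Gd M M₀ j φ), ∀ w ∈ LinearMap.ker Φ, res M M₀ j φ A w ∈ LinearMap.ker Φ :=
    fun A w hw => A.2.2.1 _ hw
  have lq : ¬ q ∣ 2 * M₀ ^ 2 := fun a => (h.prime.dvd_mul.1 a).elim
    (fun b => Nat.not_even_iff_odd.2 h.qodd
      (((Nat.prime_dvd_prime_iff_eq h.prime Nat.prime_two).1 b).symm ▸ even_two)) qM
  refine newA gal2 i2n ((Ih.odd_M0 h).pow.mul h.qodd) h.prime qM hγ (H.ρ j) (H.ρ0 j) (jm M₀ q)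
    (fun _ => rfl) (fun ℓ => congrArg (H.ρ0 j) (einc (Sum.inl ℓ)).symm)
    (fun ℓ => congrArg (H.ρ0 j) (einc (Sum.inr ℓ)).symm)
    ⟨q, h.prime, lq⟩ rfl ((res M M₀ j φ).toMonoidHom.comp (rD h j φ)) (cyc M) (isOpen_cyc M)
    (LinearMap.ker Φ) (H.K j) (fun Q => gK _) (fun Q => gK _) (fun b => gK _) ?_ ?_
    (fun b Q => H.cr j b _) (fun b Q => H.cr j b _) {j, j + 1} (by simp; omega) (n + 1) ?_
    (fun Q hQ w => (congrArg (ml O M φ) (H.kil j hG Q hQ w)).trans (map_zero _)) (H.kil0 j hG)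
    (fun Q hQ w hw => (congrArg (ml O M φ) (H.kiln j hN hj hγ Q hQ w hw)).trans (map_zero _))
    gv.law ι gv.inj Φ.toAddMonoidHom (fun _ => Iff.rfl) S ?_ ⟨p₀, pp, fun a => pM ?_⟩ pS pψ inj hψ
    (x := ⟨x, hx⟩) e (H.dz j _ rfl ?_ ?_)
  · intro Q w hw
    rw [H.mK] at hw
    exact H.k12 j Q w (hw.1.trans (map_zero _).symm) (hw.2.trans (map_zero _).symm) (map_zero _)
      (map_zero _)
  · intro b w hw
    exact ⟨(LinearMap.congr_fun (H.cr j b _).eq w).symm.trans (by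
        rw [Module.End.mul_apply, LinearMap.mem_ker.1 hw.1, map_zero]),
      (LinearMap.congr_fun (H.cr j b _).eq w).symm.trans (by
        rw [Module.End.mul_apply, LinearMap.mem_ker.1 hw.2, map_zero])⟩
  · intro w
    rw [LinearMap.mem_ker, map_nsmul, ← Nat.cast_smul_eq_nsmul O, Nat.cast_pow, Nat.cast_ofNat]
    exact tor _
  · intro ℓ ψ hl hψ v w (a : ι v = ml O M φ w)
    have hu := hU h c _ (jq ℓ)
    have ec : cyc M ψ = _ := Units.ext ((cyc_frob ℓ.2.1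
      (ℓ.2.1.coprime_iff_not_dvd.1 (cop h _ (jq ℓ))) hψ).trans hu.symm)
    obtain ⟨f1, f2⟩ := fr ℓ.1 _ ψ ℓ.2.1 hl hu hψ v
    rw [f1, f2, a, ec, ← (Cd.nt_ml φ).T2 (i := i) (j := j) (hp _ (Cd.pa_odd ℓ) 0),
      ← (Cd.nt_ml φ).S2 (i := i) (j := j) (hp _ (Cd.pa_odd ℓ) 0)]
    constructor
    · show _ = ml O M φ (rt O _ (dg 1 _) (H.ρ j (wT ℓ) w))
      rw [H.lT, rt_T2, rt_rt, V.dg_mul, mul_one, mul_inv_cancel, V.dg_one, rt_one]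
    · show _ = ml O M φ (rt O _ (dg 1 _) (rt O _ (dg 1 _) (H.ρ j (wS ℓ) w)))
      rw [H.lS, rt_S2, rt_S2, rt_rt, rt_rt, V.dg_mul, V.dg_mul, mul_one, mul_one, mul_assoc,
        mul_inv_cancel_left, mul_inv_cancel, V.dg_one, rt_one]
  · rw [h.eq]
    exact pp.dvd_of_dvd_pow (n := 2) (a.trans ⟨2 * q, by ring⟩)
  · show ml O M φ (x + Ts O _ M₀ q s x) = 0
    rw [map_add, ml_Ts, ← e]
    exact n1
  · show ml O M φ (W2 O _ M M₀ q _ j x + Ts O _ M₀ q s (W2 O _ M M₀ q _ j x)) = 0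
    rw [map_add, ml_Ts, W2_apply, map_add, ← map_nsmul, ml_Wa, hp q h.qodd 1, map_nsmul,
      ml_Wb φ M₀ q hz, ← e]
    exact n2

variable (O)

theorem newr (hG : Gt.CLG O) (hN : CLN O) : NEWR O := by
  intro M M₀ q i s ϖ h h3 hs h0 O' Y _ _ _ t d ι gv ψ hψ v hv n1 n2
  obtain ⟨n, hn, -⟩ := Tr.exists_s h0 0
  obtain ⟨k, a, a2, w, hw, e⟩ := (lift O M (i + 1) (n + 2 + 1) ϖ h.odd h3 h0
    { carrier := Bq M M₀, one_mem' := Wq.one_B, mul_mem' := Wq.B_mul h.dvd,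
      inv_mem' := Wq.B_inv h.dvd } (fun _ => 1) rfl (fun _ _ _ _ => (mul_one _).symm)).1 _ hv
  obtain ⟨j, rfl⟩ : ∃ j, k = j + 1 := ⟨k - 1, by omega⟩
  refine newG hG hN h hs
    (Ideal.Quotient.mkₐ O (Ideal.span {algebraMap O (AA O) ϖ})).toLinearMap (z := zR M ϖ)
    (fun x => map_mul (Ideal.Quotient.mk _) _ _) (n := n + 2) (fun x => ?_) (j := j) (by omega)
    (Nat.ModEq.add_right_cancel' 1 a) gv hψ hw (e.symm.trans (mp_eq_ml _ _)) n1 n2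
  obtain ⟨b, hb⟩ := hn
  rw [hb, mul_comm, mul_smul, ← map_smul, AlgHom.toLinearMap_apply, Ideal.Quotient.mkₐ_eq_mk,
    Ideal.Quotient.eq_zero_iff_mem.2, smul_zero]
  rw [Algebra.smul_def]
  exact Ideal.mul_mem_right _ _ (Ideal.mem_span_singleton_self _)

theorem newd (hG : Gt.CLG O) (hN : CLN O) : NEWD O := by
  intro M M₀ q i s h h3 hs O' Y _ _ _ t d ι gv ψ hψ v hv n1 n2
  obtain ⟨p1, -, p3, p4, -⟩ := All.div O M h.odd h3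
  obtain ⟨n, a⟩ := (p4 i _ hv.1).1
  have h0 := Dv.two_pow_ne (O := O) n
  obtain ⟨x, c, ex⟩ := ((p3 i _ h0).2 _).1 ⟨hv.1, a⟩
  obtain ⟨k, a, a2, w, hw, e⟩ := (lift O M (i + 1) (n + 1) _ h.odd h3 h0
    { carrier := Bq M M₀, one_mem' := Wq.one_B, mul_mem' := Wq.B_mul h.dvd,
      inv_mem' := Wq.B_inv h.dvd } (fun _ => 1) rfl (fun _ _ _ _ => (mul_one _).symm)).1 x
    ⟨c.1, fun g hg => p1 _ h0 (by rw [ml_rt, ex, hv.2 g hg, map_smul, ex])⟩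
  obtain ⟨j, rfl⟩ : ∃ j, k = j + 1 := ⟨k - 1, by omega⟩
  refine newG hG hN h hs (dv0 ((2 : O) ^ n)) (z := zD O M) (fun x => ?_) (n := n) (fun x => ?_)
    (j := j) (by omega) (Nat.ModEq.add_right_cancel' 1 a) gv hψ hw ?_ n1 n2
  · exact (Tr.dv_mul (ϖ := (2 : O) ^ n) (zA O M) (Ideal.Quotient.mk _ x)).symm
  · show _ • dv ((2 : O) ^ n) (Ideal.Quotient.mk _ x) = 0
    rw [pow_succ', mul_smul, ← map_smul, Algebra.smul_def ((2 : O) ^ n),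
      ← Ideal.Quotient.mk_algebraMap,
      Ideal.Quotient.eq_zero_iff_mem.2 (Ideal.mem_span_singleton_self _), zero_mul, map_zero,
      smul_zero]
  · rw [← ex, ← e]
    ext g m
    rw [ml_coeff, ml_coeff, Tr.red_coeff]
    rfl

end Vale.Agent.P022D.Nw
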